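import Vale.Agent.P370.H115.RingDefs
import Vale.Agent.P370.H758.Scal
import Vale.Agent.P370.H198.LatDefs

/-! **Block R2a: the programmed one-body potential `u = u_S + u_T`** (definitions and statements).

`u_S = -(S/kap) ∑ (C_i² - S_i²)` selects the rings: on the WHOLE shell it is exactly
`-S ∑ (|C_i⟩⟨C_i| - |S_i⟩⟨S_i|)`.  `u_T = -∑_{a<b} (T_ab/M_ab) C_a C_b` makes the hoppings. -/

namespace Vale.Agent.P370.H98

open MeasureTheory
open Vale.Agent.P370.H115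
open Vale.Agent.P363.Stmt (R3)
open scoped Nat

noncomputable section

/-- normalisation of the selection potential (the same for all the rings) -/
def kap (n : ℕ) : ℝ := ∫ x, (ringC n 0 x ^ 2 - ringS n 0 x ^ 2) * ringC n 0 x ^ 2

/-- four-fold overlap integrals of the rings -/
def M4 (n : ℕ) (a b c d : ℝ) : ℝ :=
  ∫ x, (ringC n a x * ringC n b x) * (ringC n c x * ringC n d x)

/-- `M_ab = ∫ C_a² C_b²` -/
def Mab (n m a b : ℕ) : ℝ := M4 n (rang m a) (rang m b) (rang m a) (rang m b)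

/-- the selection potential -/
def uS (n m : ℕ) (S : ℝ) (x : R3) : ℝ :=
  -(S / kap n) * ∑ i ∈ Finset.range m, (rC n m i x ^ 2 - rS n m i x ^ 2)

/-- the hopping potential (`T a b` is used for `a < b` only) -/
def uT (n m : ℕ) (T : ℕ → ℕ → ℝ) (x : R3) : ℝ :=
  -∑ b ∈ Finset.range m, ∑ a ∈ Finset.range b, T a b / Mab n m a b * (rC n m a x * rC n m b x)

/-- the vector `e_z` -/
def ez : R3 := !₂[0, 0, 1]

/-- gradient of `ringC` -/
def gradC (n : ℕ) (a : ℝ) (x : R3) : R3 :=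
  (cn n * Real.exp (-‖x‖ / n)) •
    (((n : ℝ) - 1) • (((zet a x) ^ (n - 2)).re • ez - ((zet a x) ^ (n - 2)).im • wvec a)
      - (((zet a x) ^ (n - 1)).re / (n * ‖x‖)) • x)

/-- gradient of `ringS` -/
def gradS (n : ℕ) (a : ℝ) (x : R3) : R3 :=
  (cn n * Real.exp (-‖x‖ / n)) •
    (((n : ℝ) - 1) • (((zet a x) ^ (n - 2)).im • ez + ((zet a x) ^ (n - 2)).re • wvec a)
      - (((zet a x) ^ (n - 1)).im / (n * ‖x‖)) • x)

/-- gradient of `u_S` -/
def gUS (n m : ℕ) (S : ℝ) (x : R3) : R3 :=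
  (-(S / kap n)) • ∑ i ∈ Finset.range m,
    ((2 * rC n m i x) • gradC n (rang m i) x - (2 * rS n m i x) • gradS n (rang m i) x)

/-- gradient of `u_T` -/
def gUT (n m : ℕ) (T : ℕ → ℕ → ℝ) (x : R3) : R3 :=
  -∑ b ∈ Finset.range m, ∑ a ∈ Finset.range b, (T a b / Mab n m a b) •
    (rC n m b x • gradC n (rang m a) x + rC n m a x • gradC n (rang m b) x)

/-! ### What R2a delivers -/

/-- (1) closed formula and lower bound of `kap` -/
def KapStmt : Prop := ∀ n : ℕ, 2 ≤ n →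
  kap n = (2 * n - 1) * ((2 * (n - 1))! : ℝ) ^ 2 /
    (8 * Real.pi * 16 ^ (n - 1) * n * (n ! : ℝ) ^ 4) ∧
  1 / (16 * Real.pi * (n : ℝ) ^ 6) ≤ kap n ∧ kap n ≤ 1 / (n : ℝ) ^ 5

/-- (2) **rank two**: on all the functions `(p + r q) e^{-r/n}`, `deg p < n`, `deg q < n - 1`
(in particular on the whole shell) the selection potential of one ring is exactly of rank two -/
def RankStmt : Prop := ∀ (n : ℕ) (a : ℝ) (f g : R3 → ℝ), 2 ≤ n →
  f ∈ Vale.Agent.P370.H758.Wsp (1 / (n : ℝ)) n → g ∈ Vale.Agent.P370.H758.Wsp (1 / (n : ℝ)) n →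
  ∫ x, (ringC n a x ^ 2 - ringS n a x ^ 2) * (f x * g x) =
    kap n * ((∫ x, ringC n a x * f x) * (∫ x, ringC n a x * g x)
      - (∫ x, ringS n a x * f x) * (∫ x, ringS n a x * g x))

/-- (3) lower bound of the resonant four-fold integrals -/
def PairStmt : Prop := ∀ (n m a b : ℕ), 2 ≤ n → 1 / (100000 * (n : ℝ) ^ 9) ≤ Mab n m a b

/-- (4) all the other ones are exponentially small -/
def MixStmt : Prop := ∀ (n m a b c d : ℕ), 2 ≤ n → a < m → b < m → c < m → d < m → a ≠ b →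
  ¬ ((c = a ∧ d = b) ∨ (c = b ∧ d = a)) →
  |M4 n (rang m a) (rang m b) (rang m c) (rang m d)| ≤
    16 * (n : ℝ) ^ 2 * kap n * Real.exp (-((n - 1) / (8 * (m : ℝ) ^ 4)))

/-- (5) the displacement data of `u = u_S + u_T` -/
def DispuStmt : Prop := ∃ K : ℕ, ∀ (n m : ℕ) (S τ : ℝ) (T : ℕ → ℕ → ℝ), 4 ≤ n → 1 ≤ m →
  m ≤ n → 0 ≤ S → 0 ≤ τ → (∀ a b, |T a b| ≤ τ) →
  H198.DispData (fun x => uS n m S x + uT n m T x) (fun x => gUS n m S x + gUT n m T x)
    ((n : ℝ) ^ K * (S + τ)) ∧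
  (∀ x, |uT n m T x| ≤ (n : ℝ) ^ K * τ) ∧ (∀ x, |uS n m S x| ≤ (n : ℝ) ^ K * S)

end

end Vale.Agent.P370.H98
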