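import Vale.Agent.P370.H98.Rank
import Vale.Agent.P370.H115.Overlap
import Vale.Agent.P370.H115.Bounds

/-! `RankStmt` and `KapStmt`. -/

namespace Vale.Agent.P370.H98

open MeasureTheory Set Filter Topology
open Vale.Agent.P363.Stmt (R3)
open Vale.Agent.P363.B5 (S2 sig)
open Vale.Agent.P370.H758 (cw Wsp act act_apply)
open scoped ComplexConjugate Nat

noncomputable section

theorem Iw_val (k : ℕ) {α : ℝ} (hα : 0 < α) :
    ∫ x : R3, (x 0 ^ 2 + x 1 ^ 2) ^ k * wt 0 α x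
      = 2 * Real.pi * 4 ^ (k + 1) * (k ! : ℝ) * ((k + 1)! : ℝ) / α ^ (2 * k + 3) := by
  have hq : ∀ (r : ℝ), 0 < r → ∀ u : R3, (fun x : R3 => (x 0 ^ 2 + x 1 ^ 2) ^ k) (r • u)
      = r ^ (2 * k) * (fun x : R3 => (x 0 ^ 2 + x 1 ^ 2) ^ k) u := by
    intro r _ u
    simp only [PiLp.smul_apply, smul_eq_mul]
    rw [show (r * u 0) ^ 2 + (r * u 1) ^ 2 = r ^ 2 * (u 0 ^ 2 + u 1 ^ 2) by ring, mul_pow, ← pow_mul]
  have h1 := hom_int (q := fun x : R3 => (x 0 ^ 2 + x 1 ^ 2) ^ k) (D := 2 * k) hq (fun r => Real.exp (-(α * r)))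
  have h2 := hom_int (q := fun x : R3 => (x 0 ^ 2 + x 1 ^ 2) ^ k) (D := 2 * k) hq (fun r => Real.exp (-r ^ 2))
  rw [show 2 * k + 2 = 2 * (k + 1) by ring] at h1 h2
  rw [H115.integral_pow_exp hα] at h1
  rw [H115.integral_pow_gauss] at h2
  have h3 := H115.gL_rp_z k 0
  have h4 : H115.gL (H115.rp ^ k * MvPolynomial.X 2 ^ (2 * 0))
      = ((∫ x : R3, (x 0 ^ 2 + x 1 ^ 2) ^ k * Real.exp (-‖x‖ ^ 2) : ℝ) : ℂ) := by
    unfold H115.gL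
    rw [← integral_complex_ofReal]
    refine integral_congr_ae (Eventually.of_forall fun x => ?_)
    simp [H115.rp, H115.gw]
  rw [h4] at h3
  have h5 : ∫ x : R3, (x 0 ^ 2 + x 1 ^ 2) ^ k * Real.exp (-‖x‖ ^ 2) = Real.pi ^ (3 / 2 : ℝ) * (k ! : ℝ) := by
    have := Complex.ofReal_injective h3
    rw [this, H115.bl_zero]; simp
  rw [h5, H115.pi32] at h2
  have e : ∀ x : R3, (x 0 ^ 2 + x 1 ^ 2) ^ k * wt 0 α x
      = (fun x : R3 => (x 0 ^ 2 + x 1 ^ 2) ^ k) x * (fun r => Real.exp (-(α * r))) ‖x‖ := by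
    intro x
    simp only [wt, pow_zero, one_mul]
    rw [neg_mul]
  simp only [e]
  rw [h1]
  set ω := ∫ u : S2, (fun x : R3 => (x 0 ^ 2 + x 1 ^ 2) ^ k) (u : R3) ∂sig
  have hs : √Real.pi ≠ 0 := by positivity
  have hF : ((2 * (k + 1))! : ℝ) ≠ 0 := by positivity
  have hk : ((k + 1)! : ℝ) ≠ 0 := by positivity
  have h6 : ω * ((2 * (k + 1))! : ℝ) = 2 * Real.pi * 4 ^ (k + 1) * (k ! : ℝ) * ((k + 1)! : ℝ) := by
    field_simp at h2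
    linear_combination -h2
  rw [show 2 * (k + 1) + 1 = 2 * k + 3 by ring, ← h6]
  ring

theorem cn_sq_Iw {n : ℕ} (hn : 1 ≤ n) :
    (H115.cn n : ℂ) ^ 2 * Iw (n - 1) 0 (2 / (n : ℝ)) = 2 := by
  have hn0 : (0 : ℝ) < n := by exact_mod_cast hn
  rw [Iw_eq, Iw_val _ (by positivity), ← Complex.ofReal_pow, ← Complex.ofReal_mul, H115.cn_sq]
  rw [show (2 : ℂ) = ((2 : ℝ) : ℂ) by norm_num]
  congr 1
  obtain ⟨J, rfl⟩ : ∃ J, n = J + 1 := ⟨n - 1, by omega⟩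
  rw [Nat.add_sub_cancel, div_pow]
  have hJ : ((J + 1)! : ℝ) = ((J + 1 : ℕ) : ℝ) * (J ! : ℝ) := by
    rw [Nat.factorial_succ]; push_cast; ring
  have hJ0 : (J ! : ℝ) ≠ 0 := by positivity
  have h2 : (4 : ℝ) ^ (J + 1) * 2 = 2 ^ (2 * J + 3) := by
    rw [show (4 : ℝ) = 2 ^ 2 by norm_num, ← pow_mul, ← pow_succ]; congr 1
  have h4 : (2 : ℝ) ^ (2 * J + 3) ≠ 0 := by positivity
  have hp : Real.pi ≠ 0 := Real.pi_ne_zero
  rw [hJ]
  have hN : ((J + 1 : ℕ) : ℝ) ≠ 0 := hn0.ne'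
  set N : ℝ := ((J + 1 : ℕ) : ℝ)
  rw [show 2 * (J + 1) = 2 * J + 2 by ring, ← h2]
  field_simp
  ring

theorem kap_eq {n : ℕ} (hn : 2 ≤ n) :
    kap n = H115.cn n ^ 4 / 4 * ∫ x : R3, (x 0 ^ 2 + x 1 ^ 2) ^ (2 * (n - 1)) * wt 0 (4 / (n : ℝ)) x := by
  obtain ⟨A, hA⟩ := exists_ringIso 0
  have hA' : ∀ x, cw (A x) = H115.zet 0 x := fun x => (hA x).1
  have h := ring_two hn 0 hA' (SExt_ringC hn 0 hA') (SExt_ringC hn 0 hA')
  have e : kap n = ∫ x, (H115.ringC n 0 x ^ 2 - H115.ringS n 0 x ^ 2)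
      * (H115.ringC n 0 x * H115.ringC n 0 x) := by
    unfold kap
    refine integral_congr_ae (Eventually.of_forall fun x => ?_)
    simp only
    ring
  rw [e, h, Iw_eq, ← Complex.ofReal_pow, ← Complex.ofReal_mul, ← Complex.ofReal_mul,
    ← Complex.ofReal_mul, Complex.ofReal_re]
  ring

theorem rankStmt : RankStmt := by
  intro n a f g hn hf hg
  obtain ⟨A, hA⟩ := exists_ringIso a
  have hA' : ∀ x, cw (A x) = H115.zet a x := fun x => (hA x).1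
  obtain ⟨J, rfl⟩ : ∃ J, n = J + 1 := ⟨n - 1, by omega⟩
  have hf' : (fun x => f (A.symm x)) ∈ Wsp (1 / ((J + 1 : ℕ) : ℝ)) (J + 1) :=
    (act _ (J + 1) A.symm ⟨f, hf⟩).2
  have hg' : (fun x => g (A.symm x)) ∈ Wsp (1 / ((J + 1 : ℕ) : ℝ)) (J + 1) :=
    (act _ (J + 1) A.symm ⟨g, hg⟩).2
  obtain ⟨β, hβ⟩ := exists_SExt (by omega) hf'
  obtain ⟨γ, hγ⟩ := exists_SExt (by omega) hg'
  have hβ' : SExt (1 / ((J + 1 : ℕ) : ℝ)) (J + 1 - 1) (fun x => f (A.symm x)) β := by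
    rw [Nat.add_sub_cancel]; exact hβ
  have hγ' : SExt (1 / ((J + 1 : ℕ) : ℝ)) (J + 1 - 1) (fun x => g (A.symm x)) γ := by
    rw [Nat.add_sub_cancel]; exact hγ
  have h1 := ring_one hn a hA' hβ'
  have h2 := ring_one hn a hA' hγ'
  have h3 := ring_two hn a hA' hβ' hγ'
  have hI := cn_sq_Iw (n := J + 1) (by omega)
  rw [h3, kap_eq hn]
  set cF := ∫ x, H115.ringC (J + 1) a x * f x
  set sF := ∫ x, H115.ringS (J + 1) a x * f x
  set cG := ∫ x, H115.ringC (J + 1) a x * g x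
  set sG := ∫ x, H115.ringS (J + 1) a x * g x
  have h4 : (((cF : ℂ) + sF * Complex.I) * ((cG : ℂ) + sG * Complex.I)).re = cF * cG - sF * sG := by
    simp
  rw [h1, h2] at h4
  rw [← h4, Iw_eq (2 * (J + 1 - 1))]
  set K := ∫ x : R3, (x 0 ^ 2 + x 1 ^ 2) ^ (2 * (J + 1 - 1)) * wt 0 (4 / ((J + 1 : ℕ) : ℝ)) x
  have h5 : (H115.cn (J + 1) : ℂ) * (β * Iw (J + 1 - 1) 0 (2 / ((J + 1 : ℕ) : ℝ)))
      * ((H115.cn (J + 1) : ℂ) * (γ * Iw (J + 1 - 1) 0 (2 / ((J + 1 : ℕ) : ℝ)))) * (H115.cn (J + 1) : ℂ) ^ 2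
      = β * γ * 4 := by
    linear_combination (β * γ * ((H115.cn (J + 1) : ℂ) ^ 2 * Iw (J + 1 - 1) 0 (2 / ((J + 1 : ℕ) : ℝ))
      + 2)) * hI
  have h6 : H115.cn (J + 1) ^ 4 / 4 * K * ((H115.cn (J + 1) : ℂ) * (β * Iw (J + 1 - 1) 0 (2 / ((J + 1 : ℕ) : ℝ)))
      * ((H115.cn (J + 1) : ℂ) * (γ * Iw (J + 1 - 1) 0 (2 / ((J + 1 : ℕ) : ℝ))))).re
      = (((H115.cn (J + 1) ^ 4 / 4 * K : ℝ) : ℂ) * ((H115.cn (J + 1) : ℂ) * (β * Iw (J + 1 - 1) 0 (2 / ((J + 1 : ℕ) : ℝ)))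
      * ((H115.cn (J + 1) : ℂ) * (γ * Iw (J + 1 - 1) 0 (2 / ((J + 1 : ℕ) : ℝ)))))).re := by
    rw [Complex.re_ofReal_mul]
  rw [h6]
  congr 1
  generalize Iw (J + 1 - 1) 0 (2 / ((J + 1 : ℕ) : ℝ)) = I1 at h5 ⊢
  rw [Complex.ofReal_mul, Complex.ofReal_div, Complex.ofReal_pow, Complex.ofReal_ofNat]
  linear_combination (-(H115.cn (J + 1) : ℂ) ^ 2 / 4 * K) * h5

theorem kap_formula {n : ℕ} (hn : 2 ≤ n) :
    kap n = (2 * n - 1) * ((2 * (n - 1))! : ℝ) ^ 2 /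
      (8 * Real.pi * 16 ^ (n - 1) * n * (n ! : ℝ) ^ 4) := by
  have hn0 : (0 : ℝ) < n := by exact_mod_cast (by omega : 0 < n)
  rw [kap_eq hn, Iw_val _ (by positivity), show H115.cn n ^ 4 = (H115.cn n ^ 2) ^ 2 by ring, H115.cn_sq]
  obtain ⟨J, rfl⟩ : ∃ J, n = J + 1 := ⟨n - 1, by omega⟩
  rw [Nat.add_sub_cancel, div_pow, div_pow]
  have h1 : ((2 * J + 1)! : ℝ) = (2 * J + 1) * ((2 * J)! : ℝ) := by
    rw [Nat.factorial_succ]; push_cast; ring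
  have h2 : (4 : ℝ) ^ (2 * J + 1) = 4 * 16 ^ J := by
    rw [pow_succ, pow_mul]; norm_num; ring
  have h3 : (4 : ℝ) ^ (2 * (2 * J) + 3) = 64 * (16 ^ J) ^ 2 := by
    rw [pow_add, pow_mul, pow_mul, ← pow_mul, mul_comm 2 J, pow_mul]; norm_num; ring
  rw [h1, h2, h3]
  have h16 : (16 : ℝ) ^ J ≠ 0 := by positivity
  have hp : Real.pi ≠ 0 := Real.pi_ne_zero
  have hF : ((J + 1)! : ℝ) ≠ 0 := by positivity
  have hN : ((J + 1 : ℕ) : ℝ) ≠ 0 := hn0.ne'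
  have h5 : (2 * ((J + 1 : ℕ) : ℝ) - 1) = 2 * J + 1 := by push_cast; ring
  rw [h5]
  set N : ℝ := ((J + 1 : ℕ) : ℝ)
  rw [show 2 * (2 * J) + 3 = 4 * J + 3 by ring, show 2 * (J + 1) = 2 * J + 2 by ring]
  field_simp
  ring

theorem kap_bl {n : ℕ} (hn : 2 ≤ n) :
    kap n = (2 * n - 1) * H115.bl (n - 1) ^ 2 / (8 * Real.pi * (n : ℝ) ^ 5) := by
  have hn0 : (0 : ℝ) < n := by exact_mod_cast (by omega : 0 < n)
  rw [kap_formula hn]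
  obtain ⟨J, rfl⟩ : ∃ J, n = J + 1 := ⟨n - 1, by omega⟩
  rw [Nat.add_sub_cancel, H115.bl]
  have h1 : (Nat.centralBinom J : ℝ) * ((J ! : ℝ) * (J ! : ℝ)) = ((2 * J)! : ℝ) := by
    have h := Nat.choose_mul_factorial_mul_factorial (show J ≤ 2 * J by omega)
    rw [show 2 * J - J = J by omega, ← Nat.centralBinom_eq_two_mul_choose] at h
    rw [← mul_assoc]
    exact_mod_cast h
  have hJ : ((J + 1)! : ℝ) = ((J + 1 : ℕ) : ℝ) * (J ! : ℝ) := by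
    rw [Nat.factorial_succ]; push_cast; ring
  rw [← h1, hJ]
  have hJ0 : (J ! : ℝ) ≠ 0 := by positivity
  have hN : ((J + 1 : ℕ) : ℝ) ≠ 0 := hn0.ne'
  have hp : Real.pi ≠ 0 := Real.pi_ne_zero
  have h16 : (16 : ℝ) ^ J = (4 ^ J) ^ 2 := by rw [← pow_mul, mul_comm, pow_mul]; norm_num
  rw [h16]
  have h4 : (4 : ℝ) ^ J ≠ 0 := by positivity
  set N : ℝ := ((J + 1 : ℕ) : ℝ)
  field_simp

theorem bl_lower (l : ℕ) : 1 ≤ (2 * (l : ℝ) + 1) * H115.bl l := by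
  induction l with
  | zero => simp [H115.bl_zero]
  | succ l ih =>
    have h := H115.bl_succ l
    have h0 := H115.bl_nonneg l
    push_cast
    nlinarith

theorem kapStmt : KapStmt := by
  intro n hn
  have hn0 : (0 : ℝ) < n := by exact_mod_cast (by omega : 0 < n)
  have hn2 : (2 : ℝ) ≤ n := by exact_mod_cast hn
  have hp := Real.pi_pos
  have hb1 := bl_lower (n - 1)
  have hb2 := H115.bl_sq (n - 1)
  have hb0 := H115.bl_nonneg (n - 1)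
  have hc : ((n - 1 : ℕ) : ℝ) = n - 1 := by rw [Nat.cast_sub (by omega)]; simp
  rw [hc] at hb1 hb2
  have hs : 2 * ((n : ℝ) - 1) + 1 = 2 * n - 1 := by ring
  rw [hs] at hb1 hb2
  refine ⟨kap_formula hn, ?_, ?_⟩
  · rw [kap_bl hn, div_le_div_iff₀ (by positivity) (by positivity)]
    -- (2n-1) b^2 * 16 π n^6 ≥ 8 π n^5
    have h1 : 1 ≤ (2 * (n : ℝ) - 1) * ((2 * n - 1) * H115.bl (n - 1) ^ 2) := by nlinarith
    have h2 : 1 ≤ 2 * (n : ℝ) * ((2 * n - 1) * H115.bl (n - 1) ^ 2) := by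
      have : 0 ≤ (2 * (n : ℝ) - 1) * H115.bl (n - 1) ^ 2 := by
        have : 0 ≤ 2 * (n : ℝ) - 1 := by linarith
        positivity
      nlinarith
    have h3 : 0 < 8 * Real.pi * (n : ℝ) ^ 5 := by positivity
    nlinarith
  · rw [kap_bl hn, div_le_div_iff₀ (by positivity) (by positivity)]
    have h3 : (2 * (n : ℝ) - 1) * H115.bl (n - 1) ^ 2 ≤ 1 := hb2
    have h4 : (1 : ℝ) ≤ 8 * Real.pi := by nlinarith [Real.pi_gt_three]
    have h5 : 0 < (n : ℝ) ^ 5 := by positivity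
    nlinarith

theorem kap_pos {n : ℕ} (hn : 2 ≤ n) : 0 < kap n := by
  have hn0 : (0 : ℝ) < n := by exact_mod_cast (by omega : 0 < n)
  have h := (kapStmt n hn).2.1
  have : 0 < 1 / (16 * Real.pi * (n : ℝ) ^ 6) := by have := Real.pi_pos; positivity
  linarith

end

end Vale.Agent.P370.H98
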