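import Vale.Agent.P370.H98.Hom
import Vale.Agent.P370.H98.R2aDefs

/-! The selection potential of a ring is exactly of rank two on the shell. -/

namespace Vale.Agent.P370.H98

open MeasureTheory Set Filter Topology
open Vale.Agent.P363.Stmt (R3)
open Vale.Agent.P363.H849 (Poly Pn Un ev wv)
open Vale.Agent.P370.H758
open scoped ComplexConjugate

noncomputable section

/-- growth of the elements of `Mz` -/
theorem Mz_growth {d : ℕ} {F : R3 → ℂ} (hF : F ∈ Mz d) :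
    Continuous F ∧ ∃ C : ℝ, 0 ≤ C ∧ ∀ x, ‖F x‖ ≤ C * (1 + ‖x‖) ^ d := by
  induction hF using Submodule.span_induction with
  | mem F hF =>
    obtain ⟨a, b, c, h, rfl⟩ := hF
    refine ⟨continuous_mon a b c, 1, zero_le_one, fun x => ?_⟩
    rw [one_mul]
    calc ‖mon a b c x‖ ≤ ‖x‖ ^ (a + b + c) := norm_mon_le a b c x
      _ ≤ (1 + ‖x‖) ^ (a + b + c) := by gcongr; linarith
      _ ≤ (1 + ‖x‖) ^ d := pow_le_pow_right₀ (by linarith [norm_nonneg x]) h
  | zero => exact ⟨continuous_zero, 0, le_rfl, fun x => by simp⟩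
  | add F G _ _ hF hG =>
    obtain ⟨h1, C, hC, h2⟩ := hF
    obtain ⟨h3, D, hD, h4⟩ := hG
    refine ⟨h1.add h3, C + D, by positivity, fun x => ?_⟩
    calc ‖(F + G) x‖ ≤ ‖F x‖ + ‖G x‖ := norm_add_le _ _
      _ ≤ (C + D) * (1 + ‖x‖) ^ d := by rw [add_mul]; exact add_le_add (h2 x) (h4 x)
  | smul a F _ hF =>
    obtain ⟨h1, C, hC, h2⟩ := hF
    refine ⟨h1.const_smul a, ‖a‖ * C, by positivity, fun x => ?_⟩
    rw [Pi.smul_apply, norm_smul, mul_assoc]
    gcongr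
    exact h2 x

theorem growth_integrable {F : R3 → ℂ} (hc : Continuous F) {C : ℝ} {d : ℕ}
    (hF : ∀ x, ‖F x‖ ≤ C * (1 + ‖x‖) ^ d) (j : ℕ) {α : ℝ} (hα : 0 < α) :
    Integrable fun x => F x * (wt j α x : ℂ) := by
  have h0 : Integrable fun x : R3 => C * ((1 + ‖x‖) ^ d * wt j α x) := by
    apply Integrable.const_mul
    have e : (fun x : R3 => (1 + ‖x‖) ^ d * wt j α x)
        = fun x => ∑ i ∈ Finset.range (d + 1), (d.choose i : ℝ) * wt (i + j) α x := by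
      funext x
      rw [add_comm 1 ‖x‖, add_pow, Finset.sum_mul]
      refine Finset.sum_congr rfl fun i _ => ?_
      unfold wt
      rw [one_pow]
      ring
    rw [e]
    exact integrable_finsetSum _ fun i _ => (wt_integrable _ hα).const_mul _
  refine h0.mono' ?_ (Eventually.of_forall fun x => ?_)
  · exact (hc.mul (Complex.continuous_ofReal.comp (wt_continuous j α))).aestronglyMeasurable
  · rw [norm_mul, Complex.norm_real, Real.norm_eq_abs, abs_of_nonneg (wt_nonneg j α x), ← mul_assoc]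
    have := wt_nonneg j α x
    gcongr
    exact hF x

theorem Mz_integrable {d : ℕ} {F : R3 → ℂ} (hF : F ∈ Mz d) (k l j : ℕ) {α : ℝ} (hα : 0 < α) :
    Integrable fun x => (cw x ^ k * conj (cw x) ^ l * F x) * (wt j α x : ℂ) := by
  obtain ⟨h1, C, hC, h2⟩ := Mz_growth hF
  have hcj : Continuous fun x : R3 => conj (cw x) := Complex.continuous_conj.comp continuous_cw
  have hk := continuous_cw
  refine growth_integrable (C := C) (d := k + l + d) (by fun_prop) (fun x => ?_) j hα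
  rw [norm_mul, norm_mul, norm_pow, norm_pow, RCLike.norm_conj, ← pow_add]
  have h3 : ‖cw x‖ ≤ 1 + ‖x‖ := (norm_cw_le x).trans (by linarith)
  calc ‖cw x‖ ^ (k + l) * ‖F x‖ ≤ (1 + ‖x‖) ^ (k + l) * (C * (1 + ‖x‖) ^ d) := by
        gcongr
        exact h2 x
    _ = C * (1 + ‖x‖) ^ (k + l + d) := by ring

theorem Mz2_integrable {d e : ℕ} {F G : R3 → ℂ} (hF : F ∈ Mz d) (hG : G ∈ Mz e) (k j : ℕ) {α : ℝ}
    (hα : 0 < α) :
    Integrable fun x => (cw x ^ k * (F x * G x)) * (wt j α x : ℂ) := by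
  obtain ⟨h1, C, hC, h2⟩ := Mz_growth hF
  obtain ⟨h3, D, hD, h4⟩ := Mz_growth hG
  have hk := continuous_cw
  refine growth_integrable (C := C * D) (d := k + d + e) (by fun_prop) (fun x => ?_) j hα
  rw [norm_mul, norm_mul, norm_pow]
  have h3 : ‖cw x‖ ≤ 1 + ‖x‖ := (norm_cw_le x).trans (by linarith)
  calc ‖cw x‖ ^ k * (‖F x‖ * ‖G x‖)
      ≤ (1 + ‖x‖) ^ k * ((C * (1 + ‖x‖) ^ d) * (D * (1 + ‖x‖) ^ e)) := by
        gcongr
        · exact h2 x
        · exact h4 x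
    _ = C * D * (1 + ‖x‖) ^ (k + d + e) := by ring

/-- `∫ |w|^{2k} r^j e^{-α r}` -/
def Iw (k j : ℕ) (α : ℝ) : ℂ := ∫ x, (cw x ^ k * conj (cw x) ^ k) * (wt j α x : ℂ)

/-- what is extracted from `F ∈ Mz J`: the coefficient `β` of `w̄^J` -/
def Ext (J : ℕ) (F : R3 → ℂ) (β : ℂ) : Prop :=
  (∀ (j : ℕ) (α : ℝ), 0 < α → ∫ x, (cw x ^ J * F x) * (wt j α x : ℂ) = β * Iw J j α) ∧
  ∀ (j : ℕ) (α : ℝ), 0 < α → ∀ G ∈ Mz J,
    ∫ x, (cw x ^ (2 * J) * (F x * G x)) * (wt j α x : ℂ)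
      = β * ∫ x, (cw x ^ (2 * J) * (conj (cw x) ^ J * G x)) * (wt j α x : ℂ)

theorem wt_eq (j : ℕ) (α : ℝ) (x : R3) :
    wt j α x = (fun r : ℝ => r ^ j * Real.exp (-α * r)) ‖x‖ := rfl

theorem ext_mon {J a b c : ℕ} (h : a + b + c ≤ J) :
    Ext J (mon a b c) (if b = J then 1 else 0) := by
  split_ifs with hb
  · subst hb
    obtain rfl : a = 0 := by omega
    obtain rfl : c = 0 := by omega
    refine ⟨fun j α _ => ?_, fun j α _ G _ => ?_⟩
    · simp only [mon, pow_zero, one_mul, mul_one, Iw]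
    · simp only [mon, pow_zero, one_mul, mul_one]
  · refine ⟨fun j α _ => ?_, fun j α hα G hG => ?_⟩
    · rw [zero_mul]
      have h1 := mon_int_zero (a := J + a) (b := b) c (by omega)
        (fun r => r ^ j * Real.exp (-α * r))
      rw [← h1]
      refine integral_congr_ae (Eventually.of_forall fun x => ?_)
      simp only [mon, wt]
      ring
    · rw [zero_mul]
      induction hG using Submodule.span_induction with
      | mem G hG =>
        obtain ⟨a', b', c', h', rfl⟩ := hG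
        have h1 := mon_int_zero (a := 2 * J + a + a') (b := b + b') (c + c') (by omega)
          (fun r => r ^ j * Real.exp (-α * r))
        rw [← h1]
        refine integral_congr_ae (Eventually.of_forall fun x => ?_)
        simp only [mon, wt]
        ring
      | zero => simp
      | add G G' hG hG' h1 h2 =>
        have i1 := Mz2_integrable (mon_mem h) hG (2 * J) j hα
        have i2 := Mz2_integrable (mon_mem h) hG' (2 * J) j hα
        have e : ∀ x, (cw x ^ (2 * J) * (mon a b c x * (G + G') x)) * (wt j α x : ℂ)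
            = (cw x ^ (2 * J) * (mon a b c x * G x)) * (wt j α x : ℂ)
              + (cw x ^ (2 * J) * (mon a b c x * G' x)) * (wt j α x : ℂ) := by
          intro x; simp only [Pi.add_apply]; ring
        simp only [e]
        rw [integral_add i1 i2, h1, h2, add_zero]
      | smul s G _ h1 =>
        have e : ∀ x, (cw x ^ (2 * J) * (mon a b c x * (s • G) x)) * (wt j α x : ℂ)
            = s * ((cw x ^ (2 * J) * (mon a b c x * G x)) * (wt j α x : ℂ)) := by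
          intro x; simp only [Pi.smul_apply, smul_eq_mul]; ring
        simp only [e]
        rw [integral_const_mul, h1, mul_zero]

theorem Ext.add {J d e : ℕ} {F F' : R3 → ℂ} {β γ : ℂ} (hE : Ext J F β) (hF : F ∈ Mz d)
    (hF' : F' ∈ Mz e) (hE' : Ext J F' γ) : Ext J (F + F') (β + γ) := by
  obtain ⟨h3, h4⟩ := hE
  obtain ⟨h6, h7⟩ := hE'
  refine ⟨fun j α hα => ?_, fun j α hα G hG => ?_⟩
  · have i1 := Mz_integrable hF J 0 j hα
    have i2 := Mz_integrable hF' J 0 j hα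
    simp only [pow_zero, mul_one] at i1 i2
    have e : ∀ x, (cw x ^ J * (F + F') x) * (wt j α x : ℂ)
        = (cw x ^ J * F x) * (wt j α x : ℂ) + (cw x ^ J * F' x) * (wt j α x : ℂ) := by
      intro x; simp only [Pi.add_apply]; ring
    simp only [e]
    rw [integral_add i1 i2, h3 j α hα, h6 j α hα]
    ring
  · have i1 := Mz2_integrable hF hG (2 * J) j hα
    have i2 := Mz2_integrable hF' hG (2 * J) j hα
    have e : ∀ x, (cw x ^ (2 * J) * ((F + F') x * G x)) * (wt j α x : ℂ)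
        = (cw x ^ (2 * J) * (F x * G x)) * (wt j α x : ℂ)
          + (cw x ^ (2 * J) * (F' x * G x)) * (wt j α x : ℂ) := by
      intro x; simp only [Pi.add_apply]; ring
    simp only [e]
    rw [integral_add i1 i2, h4 j α hα G hG, h7 j α hα G hG]
    ring

theorem Ext.smul {J : ℕ} {F : R3 → ℂ} {β : ℂ} (hE : Ext J F β) (s : ℂ) : Ext J (s • F) (s * β) := by
  obtain ⟨h3, h4⟩ := hE
  refine ⟨fun j α hα => ?_, fun j α hα G hG => ?_⟩
  · have e : ∀ x, (cw x ^ J * (s • F) x) * (wt j α x : ℂ)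
        = s * ((cw x ^ J * F x) * (wt j α x : ℂ)) := by
      intro x; simp only [Pi.smul_apply, smul_eq_mul]; ring
    simp only [e]
    rw [integral_const_mul, h3 j α hα]
    ring
  · have e : ∀ x, (cw x ^ (2 * J) * ((s • F) x * G x)) * (wt j α x : ℂ)
        = s * ((cw x ^ (2 * J) * (F x * G x)) * (wt j α x : ℂ)) := by
      intro x; simp only [Pi.smul_apply, smul_eq_mul]; ring
    simp only [e]
    rw [integral_const_mul, h4 j α hα G hG]
    ring

/-- every element of `Mz d`, `d ≤ J`, has a coefficient, which vanishes when `d < J` -/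
theorem exists_ext {J d : ℕ} (hd : d ≤ J) {F : R3 → ℂ} (hF : F ∈ Mz d) :
    ∃ β, Ext J F β ∧ (d < J → β = 0) := by
  induction hF using Submodule.span_induction with
  | mem F hF =>
    obtain ⟨a, b, c, h, rfl⟩ := hF
    refine ⟨_, ext_mon (h.trans hd), fun h1 => if_neg (by omega)⟩
  | zero => exact ⟨0, ⟨fun j α _ => by simp, fun j α _ G _ => by simp⟩, fun _ => rfl⟩
  | add F F' hF hF' h1 h2 =>
    obtain ⟨β, h3, h5⟩ := h1
    obtain ⟨γ, h6, h8⟩ := h2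
    exact ⟨β + γ, h3.add hF hF' h6, fun h => by rw [h5 h, h8 h, add_zero]⟩
  | smul s F _ h1 =>
    obtain ⟨β, h3, h5⟩ := h1
    exact ⟨s * β, h3.smul s, fun h => by rw [h5 h, mul_zero]⟩

/-- the double extraction -/
theorem ext_ext {J : ℕ} {F G : R3 → ℂ} {β γ : ℂ} (hF : Ext J F β) (hG : Ext J G γ)
    (hG' : G ∈ Mz J) (j : ℕ) {α : ℝ} (hα : 0 < α) :
    ∫ x, (cw x ^ (2 * J) * (F x * G x)) * (wt j α x : ℂ) = β * γ * Iw (2 * J) j α := by
  rw [hF.2 j α hα G hG']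
  have h1 : mon 0 J 0 ∈ Mz J := mon_mem (by omega)
  have h2 := hG.2 j α hα _ h1
  have e1 : ∀ x, (cw x ^ (2 * J) * (G x * mon 0 J 0 x)) * (wt j α x : ℂ)
      = (cw x ^ (2 * J) * (conj (cw x) ^ J * G x)) * (wt j α x : ℂ) := by
    intro x; simp only [mon, pow_zero, one_mul, mul_one]; ring
  have e2 : ∀ x, (cw x ^ (2 * J) * (conj (cw x) ^ J * mon 0 J 0 x)) * (wt j α x : ℂ)
      = (cw x ^ (2 * J) * conj (cw x) ^ (2 * J)) * (wt j α x : ℂ) := by
    intro x; simp only [mon, pow_zero, one_mul, mul_one]; ring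
  simp only [e1, e2] at h2
  rw [h2, Iw]
  ring

theorem wt_mul_exp (j : ℕ) (α κ : ℝ) (x : R3) :
    wt j α x * Real.exp (-κ * ‖x‖) = wt j (κ + α) x := by
  unfold wt
  rw [mul_assoc, ← Real.exp_add]
  congr 2
  ring

theorem wt_mul_exp' (j : ℕ) (α κ : ℝ) (x : R3) :
    wt j α x * (‖x‖ * Real.exp (-κ * ‖x‖)) = wt (j + 1) (κ + α) x := by
  rw [mul_left_comm, wt_mul_exp]
  unfold wt
  ring

/-- extraction for the shell functions -/
theorem exists_shell_ext {κ : ℝ} {J : ℕ} (hJ : 1 ≤ J) {f : R3 → ℝ}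
    (hf : f ∈ Wsp κ (J + 1)) :
    ∃ (β : ℂ) (P Q : R3 → ℂ), P ∈ Mz J ∧ Q ∈ Mz J ∧ Ext J P β ∧ Ext J Q 0 ∧
      ∀ x, (f x : ℂ) = P x * (Real.exp (-κ * ‖x‖) : ℂ) + Q x * ((‖x‖ * Real.exp (-κ * ‖x‖) : ℝ) : ℂ) := by
  obtain ⟨⟨p, q⟩, hu, rfl⟩ := mem_Wsp.1 hf
  have hp : p ∈ Pn (J + 1) := hu.1
  have hq : q ∈ Pn J := hu.2
  obtain ⟨β, h1, -⟩ := exists_ext le_rfl (ev_mem_Mz hp)
  obtain ⟨J', rfl⟩ : ∃ J', J = J' + 1 := ⟨J - 1, by omega⟩
  have hq' := ev_mem_Mz (d := J') hq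
  obtain ⟨γ, h2, h3⟩ := exists_ext (J := J' + 1) (Nat.le_succ J') hq'
  rw [h3 (Nat.lt_succ_self _)] at h2
  refine ⟨β, _, _, ev_mem_Mz hp, Mz_mono (Nat.le_succ J') hq', h1, h2, fun x => ?_⟩
  simp only [wv, Vale.Agent.P363.H849.G, Vale.Agent.P363.H849.hA, Vale.Agent.P363.H849.hB]
  push_cast
  ring

/-- coefficient data of a shell function -/
def SExt (κ : ℝ) (J : ℕ) (f : R3 → ℝ) (β : ℂ) : Prop :=
  ∃ (P Q : R3 → ℂ), P ∈ Mz J ∧ Q ∈ Mz J ∧ Ext J P β ∧ Ext J Q 0 ∧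
      ∀ x, (f x : ℂ) = P x * (Real.exp (-κ * ‖x‖) : ℂ) + Q x * ((‖x‖ * Real.exp (-κ * ‖x‖) : ℝ) : ℂ)

theorem SExt.one {κ : ℝ} (hκ : 0 < κ) {J : ℕ} {f : R3 → ℝ} {β : ℂ} (hf : SExt κ J f β) (j : ℕ) {α : ℝ}
    (hα : 0 < α) : ∫ x, (cw x ^ J * (f x : ℂ)) * (wt j α x : ℂ) = β * Iw J j (κ + α) := by
  obtain ⟨P, Q, hP, hQ, h1, h2, h3⟩ := hf
  have hκα : 0 < κ + α := by linarith
  have i1 := Mz_integrable hP J 0 j hκα
  have i2 := Mz_integrable hQ J 0 (j + 1) hκα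
  simp only [pow_zero, mul_one] at i1 i2
  have e : ∀ x, (cw x ^ J * (f x : ℂ)) * (wt j α x : ℂ)
      = (cw x ^ J * P x) * (wt j (κ + α) x : ℂ) + (cw x ^ J * Q x) * (wt (j + 1) (κ + α) x : ℂ) := by
    intro x
    rw [h3, ← wt_mul_exp, ← wt_mul_exp']
    push_cast
    ring
  simp only [e]
  rw [integral_add i1 i2, h1.1 j _ hκα, h2.1 (j + 1) _ hκα]
  ring

theorem SExt.two {κ : ℝ} (hκ : 0 < κ) {J : ℕ} {f g : R3 → ℝ} {β γ : ℂ} (hf : SExt κ J f β)
    (hg : SExt κ J g γ) (j : ℕ) {α : ℝ} (hα : 0 < α) :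
    ∫ x, (cw x ^ (2 * J) * ((f x : ℂ) * (g x : ℂ))) * (wt j α x : ℂ)
      = β * γ * Iw (2 * J) j (2 * κ + α) := by
  obtain ⟨P, Q, hP, hQ, h1, h2, h3⟩ := hf
  obtain ⟨P', Q', hP', hQ', h1', h2', h3'⟩ := hg
  have hκα : 0 < 2 * κ + α := by linarith
  have i1 := Mz2_integrable hP hP' (2 * J) j hκα
  have i2 := Mz2_integrable hP hQ' (2 * J) (j + 1) hκα
  have i3 := Mz2_integrable hQ hP' (2 * J) (j + 1) hκα
  have i4 := Mz2_integrable hQ hQ' (2 * J) (j + 2) hκα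
  have w1 : ∀ x, wt j α x * Real.exp (-κ * ‖x‖) * Real.exp (-κ * ‖x‖) = wt j (2 * κ + α) x := by
    intro x
    rw [wt_mul_exp, wt_mul_exp]
    congr 1; ring
  have w2 : ∀ x, wt j α x * Real.exp (-κ * ‖x‖) * (‖x‖ * Real.exp (-κ * ‖x‖))
      = wt (j + 1) (2 * κ + α) x := by
    intro x
    rw [wt_mul_exp, wt_mul_exp']
    congr 1; ring
  have w4 : ∀ x, wt j α x * (‖x‖ * Real.exp (-κ * ‖x‖)) * (‖x‖ * Real.exp (-κ * ‖x‖))
      = wt (j + 2) (2 * κ + α) x := by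
    intro x
    rw [wt_mul_exp', wt_mul_exp']
    congr 1; ring
  have e : ∀ x, (cw x ^ (2 * J) * ((f x : ℂ) * (g x : ℂ))) * (wt j α x : ℂ)
      = ((cw x ^ (2 * J) * (P x * P' x)) * (wt j (2 * κ + α) x : ℂ)
        + (cw x ^ (2 * J) * (P x * Q' x)) * (wt (j + 1) (2 * κ + α) x : ℂ))
        + ((cw x ^ (2 * J) * (Q x * P' x)) * (wt (j + 1) (2 * κ + α) x : ℂ)
        + (cw x ^ (2 * J) * (Q x * Q' x)) * (wt (j + 2) (2 * κ + α) x : ℂ)) := by
    intro x
    rw [h3, h3', ← w1 x, ← w2 x, ← w4 x]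
    push_cast
    ring
  simp only [e]
  have i12 : Integrable fun x => (cw x ^ (2 * J) * (P x * P' x)) * (wt j (2 * κ + α) x : ℂ)
        + (cw x ^ (2 * J) * (P x * Q' x)) * (wt (j + 1) (2 * κ + α) x : ℂ) := i1.add i2
  have i34 : Integrable fun x => (cw x ^ (2 * J) * (Q x * P' x)) * (wt (j + 1) (2 * κ + α) x : ℂ)
        + (cw x ^ (2 * J) * (Q x * Q' x)) * (wt (j + 2) (2 * κ + α) x : ℂ) := i3.add i4
  rw [integral_add i12 i34, integral_add i1 i2, integral_add i3 i4,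
    ext_ext h1 h1' hP' j hκα, ext_ext h1 h2' hQ' (j + 1) hκα, ext_ext h2 h1' hP' (j + 1) hκα,
    ext_ext h2 h2' hQ' (j + 2) hκα]
  ring

theorem exists_SExt {κ : ℝ} {J : ℕ} (hJ : 1 ≤ J) {f : R3 → ℝ} (hf : f ∈ Wsp κ (J + 1)) :
    ∃ β, SExt κ J f β := by
  obtain ⟨β, P, Q, h⟩ := exists_shell_ext hJ hf
  exact ⟨β, P, Q, h⟩

/-- the isometry which takes the ring `a` to the standard position -/
theorem exists_ringIso (a : ℝ) : ∃ A : R3 ≃ₗᵢ[ℝ] R3, ∀ x, cw (A x) = H115.zet a x ∧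
    A x 2 = H115.pco a x := by
  have hsc := Real.sin_sq_add_cos_sq a
  obtain ⟨A, hA⟩ := exists_iso ![!₂[0, 0, 1], !₂[-Real.sin a, Real.cos a, 0],
      !₂[Real.cos a, Real.sin a, 0]] (by
    rw [orthonormal_iff_ite]
    intro i j
    rw [PiLp.inner_apply, Fin.sum_univ_three]
    simp only [RCLike.inner_apply, conj_trivial]
    fin_cases i <;> fin_cases j <;> simp <;> nlinarith)
  refine ⟨A, fun x => ⟨?_, ?_⟩⟩
  · have h0 : A x 0 = x 2 := by
      rw [hA]; simp [PiLp.inner_apply, Fin.sum_univ_three]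
    have h1 : A x 1 = -Real.sin a * x 0 + Real.cos a * x 1 := by
      rw [hA]; simp [PiLp.inner_apply, Fin.sum_univ_three]; ring
    unfold cw H115.zet
    rw [h0, h1]
    apply Complex.ext <;> simp [Complex.sin_ofReal_re, Complex.cos_ofReal_re]
  · rw [hA]; simp [PiLp.inner_apply, Fin.sum_univ_three, H115.pco]; ring

theorem exp_div_eq (n : ℕ) (x : R3) : Real.exp (-‖x‖ / n) = Real.exp (-(1 / (n : ℝ)) * ‖x‖) := by
  congr 1; ring

/-- `∫ (C + iS) f` -/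
theorem ring_one {n : ℕ} (hn : 2 ≤ n) (a : ℝ) {f : R3 → ℝ} {A : R3 ≃ₗᵢ[ℝ] R3}
    (hA : ∀ x, cw (A x) = H115.zet a x) {β : ℂ}
    (hβ : SExt (1 / (n : ℝ)) (n - 1) (fun x => f (A.symm x)) β) :
    ((∫ x, H115.ringC n a x * f x : ℝ) : ℂ) + ((∫ x, H115.ringS n a x * f x : ℝ) : ℂ) * Complex.I
      = (H115.cn n : ℂ) * (β * Iw (n - 1) 0 (2 / (n : ℝ))) := by
  have hκ : 0 < 1 / (n : ℝ) := by
    have : (0 : ℝ) < n := by exact_mod_cast (by omega : 0 < n)
    positivity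
  have h1 := hβ.one hκ 0 hκ
  have h2 : (1 / (n : ℝ) + 1 / n) = 2 / n := by ring
  rw [h2] at h1
  have hm := A.measurePreserving.integral_comp A.toHomeomorph.measurableEmbedding
    (fun x => (cw x ^ (n - 1) * ((f (A.symm x) : ℝ) : ℂ)) * (wt 0 (1 / (n : ℝ)) x : ℂ))
  rw [h1] at hm
  rw [← hm]
  obtain ⟨P, Q, hP, hQ, -, -, h3⟩ := hβ
  -- integrability
  have hint : Integrable fun x => (cw x ^ (n - 1) * ((f (A.symm x) : ℝ) : ℂ)) * (wt 0 (1 / (n : ℝ)) x : ℂ) := by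
    have hκα : 0 < 1 / (n : ℝ) + 1 / n := by linarith
    have i1 := Mz_integrable hP (n - 1) 0 0 hκα
    have i2 := Mz_integrable hQ (n - 1) 0 (0 + 1) hκα
    simp only [pow_zero, mul_one] at i1 i2
    refine (i1.add i2).congr (Eventually.of_forall fun x => ?_)
    simp only [Pi.add_apply]
    rw [h3, ← wt_mul_exp, ← wt_mul_exp']
    push_cast
    ring
  have hint2 := (A.measurePreserving.integrable_comp_emb A.toHomeomorph.measurableEmbedding).2 hint
  have e : ∀ x, (fun x => (cw x ^ (n - 1) * ((f (A.symm x) : ℝ) : ℂ)) * (wt 0 (1 / (n : ℝ)) x : ℂ)) (A x)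
      = (H115.zet a x ^ (n - 1)) * ((f x * Real.exp (-‖x‖ / n) : ℝ) : ℂ) := by
    intro x
    simp only
    rw [hA, A.symm_apply_apply, exp_div_eq]
    unfold wt
    rw [A.norm_map]
    push_cast
    ring
  have hint3 : Integrable fun x => (H115.zet a x ^ (n - 1)) * ((f x * Real.exp (-‖x‖ / n) : ℝ) : ℂ) :=
    hint2.congr (Eventually.of_forall e)
  rw [integral_congr_ae (Eventually.of_forall e)]
  have hre := integral_re hint3
  have him := integral_im hint3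
  have e1 : ∫ x, H115.ringC n a x * f x
      = H115.cn n * (∫ x, (H115.zet a x ^ (n - 1)) * ((f x * Real.exp (-‖x‖ / n) : ℝ) : ℂ)).re := by
    have : (∫ x, (H115.zet a x ^ (n - 1)) * ((f x * Real.exp (-‖x‖ / n) : ℝ) : ℂ)).re
        = ∫ x, ((H115.zet a x ^ (n - 1)) * ((f x * Real.exp (-‖x‖ / n) : ℝ) : ℂ)).re := hre.symm
    rw [this, ← integral_const_mul]
    refine integral_congr_ae (Eventually.of_forall fun x => ?_)
    simp only [H115.ringC, Complex.re_mul_ofReal]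
    ring
  have e2 : ∫ x, H115.ringS n a x * f x
      = H115.cn n * (∫ x, (H115.zet a x ^ (n - 1)) * ((f x * Real.exp (-‖x‖ / n) : ℝ) : ℂ)).im := by
    have : (∫ x, (H115.zet a x ^ (n - 1)) * ((f x * Real.exp (-‖x‖ / n) : ℝ) : ℂ)).im
        = ∫ x, ((H115.zet a x ^ (n - 1)) * ((f x * Real.exp (-‖x‖ / n) : ℝ) : ℂ)).im := him.symm
    rw [this, ← integral_const_mul]
    refine integral_congr_ae (Eventually.of_forall fun x => ?_)
    simp only [H115.ringS, Complex.im_mul_ofReal]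
    ring
  rw [e1, e2]
  apply Complex.ext <;> simp

theorem exp_div_sq (n : ℕ) (x : R3) : Real.exp (-‖x‖ / n) * Real.exp (-‖x‖ / n)
    = wt 0 (2 / (n : ℝ)) x := by
  unfold wt
  rw [← Real.exp_add, pow_zero, one_mul]
  congr 1; ring

/-- `∫ (C² - S²) f g` -/
theorem ring_two {n : ℕ} (hn : 2 ≤ n) (a : ℝ) {f g : R3 → ℝ} {A : R3 ≃ₗᵢ[ℝ] R3}
    (hA : ∀ x, cw (A x) = H115.zet a x) {β γ : ℂ}
    (hβ : SExt (1 / (n : ℝ)) (n - 1) (fun x => f (A.symm x)) β)
    (hγ : SExt (1 / (n : ℝ)) (n - 1) (fun x => g (A.symm x)) γ) :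
    ∫ x, (H115.ringC n a x ^ 2 - H115.ringS n a x ^ 2) * (f x * g x)
      = ((H115.cn n : ℂ) ^ 2 * (β * γ * Iw (2 * (n - 1)) 0 (4 / (n : ℝ)))).re := by
  have hn0 : (0 : ℝ) < n := by exact_mod_cast (by omega : 0 < n)
  have hκ : 0 < 1 / (n : ℝ) := by positivity
  have hα : 0 < 2 / (n : ℝ) := by positivity
  have h1 := hβ.two hκ hγ 0 hα
  have h2 : (2 * (1 / (n : ℝ)) + 2 / n) = 4 / n := by ring
  rw [h2] at h1
  have hm := A.measurePreserving.integral_comp A.toHomeomorph.measurableEmbedding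
    (fun x => (cw x ^ (2 * (n - 1)) * (((f (A.symm x) : ℝ) : ℂ) * ((g (A.symm x) : ℝ) : ℂ)))
      * (wt 0 (2 / (n : ℝ)) x : ℂ))
  rw [h1] at hm
  rw [← hm]
  have hint : Integrable fun x => (cw x ^ (2 * (n - 1)) * (((f (A.symm x) : ℝ) : ℂ) * ((g (A.symm x) : ℝ) : ℂ)))
      * (wt 0 (2 / (n : ℝ)) x : ℂ) := by
    obtain ⟨P, Q, hP, hQ, -, -, h3⟩ := hβ
    obtain ⟨P', Q', hP', hQ', -, -, h3'⟩ := hγ
    have hκα : 0 < 1 / (n : ℝ) + (1 / n + 2 / n) := by positivity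
    have i1 := Mz2_integrable hP hP' (2 * (n - 1)) 0 hκα
    have i2 := Mz2_integrable hP hQ' (2 * (n - 1)) (0 + 1) hκα
    have i3 := Mz2_integrable hQ hP' (2 * (n - 1)) (0 + 1) hκα
    have i4 := Mz2_integrable hQ hQ' (2 * (n - 1)) (0 + 1 + 1) hκα
    refine ((i1.add i2).add (i3.add i4)).congr (Eventually.of_forall fun x => ?_)
    simp only [Pi.add_apply]
    rw [h3, h3']
    have w1 : wt 0 (1 / (n : ℝ) + (1 / n + 2 / n)) x
        = wt 0 (2 / (n : ℝ)) x * Real.exp (-(1 / (n : ℝ)) * ‖x‖) * Real.exp (-(1 / (n : ℝ)) * ‖x‖) := by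
      rw [wt_mul_exp, wt_mul_exp]
    have w2 : wt (0 + 1) (1 / (n : ℝ) + (1 / n + 2 / n)) x
        = wt 0 (2 / (n : ℝ)) x * Real.exp (-(1 / (n : ℝ)) * ‖x‖)
          * (‖x‖ * Real.exp (-(1 / (n : ℝ)) * ‖x‖)) := by
      rw [wt_mul_exp, wt_mul_exp']
    have w3 : wt (0 + 1 + 1) (1 / (n : ℝ) + (1 / n + 2 / n)) x
        = wt 0 (2 / (n : ℝ)) x * (‖x‖ * Real.exp (-(1 / (n : ℝ)) * ‖x‖))
          * (‖x‖ * Real.exp (-(1 / (n : ℝ)) * ‖x‖)) := by
      rw [wt_mul_exp', wt_mul_exp']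
    rw [w1, w2, w3]
    push_cast
    ring
  have hint2 := (A.measurePreserving.integrable_comp_emb A.toHomeomorph.measurableEmbedding).2 hint
  have e : ∀ x, (fun x => (cw x ^ (2 * (n - 1)) * (((f (A.symm x) : ℝ) : ℂ) * ((g (A.symm x) : ℝ) : ℂ)))
      * (wt 0 (2 / (n : ℝ)) x : ℂ)) (A x)
      = ((H115.zet a x ^ (n - 1)) ^ 2) * (((f x * g x) * (Real.exp (-‖x‖ / n) * Real.exp (-‖x‖ / n)) : ℝ) : ℂ) := by
    intro x
    simp only
    rw [hA, A.symm_apply_apply, exp_div_sq]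
    unfold wt
    rw [A.norm_map]
    push_cast
    ring
  have hint3 : Integrable fun x => ((H115.zet a x ^ (n - 1)) ^ 2)
      * (((f x * g x) * (Real.exp (-‖x‖ / n) * Real.exp (-‖x‖ / n)) : ℝ) : ℂ) :=
    hint2.congr (Eventually.of_forall e)
  rw [integral_congr_ae (Eventually.of_forall e)]
  have hre := integral_re hint3
  have e0 : ((H115.cn n : ℂ) ^ 2 * ∫ x, ((H115.zet a x ^ (n - 1)) ^ 2)
      * (((f x * g x) * (Real.exp (-‖x‖ / n) * Real.exp (-‖x‖ / n)) : ℝ) : ℂ)).re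
      = H115.cn n ^ 2 * (∫ x, ((H115.zet a x ^ (n - 1)) ^ 2)
      * (((f x * g x) * (Real.exp (-‖x‖ / n) * Real.exp (-‖x‖ / n)) : ℝ) : ℂ)).re := by
    rw [← Complex.ofReal_pow, Complex.re_ofReal_mul]
  rw [e0]
  have : (∫ x, ((H115.zet a x ^ (n - 1)) ^ 2)
      * (((f x * g x) * (Real.exp (-‖x‖ / n) * Real.exp (-‖x‖ / n)) : ℝ) : ℂ)).re
      = ∫ x, (((H115.zet a x ^ (n - 1)) ^ 2)
      * (((f x * g x) * (Real.exp (-‖x‖ / n) * Real.exp (-‖x‖ / n)) : ℝ) : ℂ)).re := hre.symm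
  rw [this, ← integral_const_mul]
  refine integral_congr_ae (Eventually.of_forall fun x => ?_)
  simp only
  rw [Complex.re_mul_ofReal]
  simp only [H115.ringC, H115.ringS, sq, Complex.mul_re]
  ring

/-- the coefficient of the ring itself -/
theorem SExt_ringC {n : ℕ} (hn : 2 ≤ n) (a : ℝ) {A : R3 ≃ₗᵢ[ℝ] R3}
    (hA : ∀ x, cw (A x) = H115.zet a x) :
    SExt (1 / (n : ℝ)) (n - 1) (fun x => H115.ringC n a (A.symm x)) (H115.cn n / 2 : ℝ) := by
  have h1 : Ext (n - 1) (mon (n - 1) 0 0) 0 := by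
    have := ext_mon (J := n - 1) (a := n - 1) (b := 0) (c := 0) (by omega)
    rwa [if_neg (by omega)] at this
  have h2 : Ext (n - 1) (mon 0 (n - 1) 0) 1 := by
    have := ext_mon (J := n - 1) (a := 0) (b := n - 1) (c := 0) (by omega)
    rwa [if_pos rfl] at this
  have m1 : mon (n - 1) 0 0 ∈ Mz (n - 1) := mon_mem (by omega)
  have m2 : mon 0 (n - 1) 0 ∈ Mz (n - 1) := mon_mem (by omega)
  have h3 := (h1.add m1 m2 h2).smul ((H115.cn n / 2 : ℝ) : ℂ)
  rw [zero_add, mul_one] at h3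
  refine ⟨_, 0, (Mz _).smul_mem _ ((Mz _).add_mem m1 m2), (Mz _).zero_mem, h3,
    ⟨fun j α _ => by simp, fun j α _ G _ => by simp⟩, fun x => ?_⟩
  simp only [Pi.smul_apply, Pi.add_apply, Pi.zero_apply, smul_eq_mul, zero_mul, add_zero, mon,
    pow_zero, mul_one, one_mul]
  have hz : H115.zet a (A.symm x) = cw x := by rw [← hA, A.apply_symm_apply]
  rw [H115.ringC, hz, A.symm.norm_map, exp_div_eq, ← map_pow]
  have h4 : ((cw x ^ (n - 1)).re : ℂ) = (cw x ^ (n - 1) + conj (cw x ^ (n - 1))) / 2 := by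
    rw [Complex.add_conj]; push_cast; ring
  push_cast
  rw [h4]
  ring

/-- a value of `Iw` is real and equal to an integral -/
theorem Iw_eq (k j : ℕ) (α : ℝ) :
    Iw k j α = ((∫ x, (x 0 ^ 2 + x 1 ^ 2) ^ k * wt j α x : ℝ) : ℂ) := by
  unfold Iw
  rw [← integral_complex_ofReal]
  refine integral_congr_ae (Eventually.of_forall fun x => ?_)
  simp only
  rw [← mul_pow, Complex.mul_conj, Complex.normSq_eq_norm_sq, norm_cw_sq]
  push_cast
  ring

end

end Vale.Agent.P370.H98
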