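import Vale.Agent.P370.H98.Grad
import Vale.Agent.P370.H98.Kap
import Vale.Agent.P370.H305.Iface
import Vale.Agent.P370.H993.Poisson

/-! The displacement data of the designed potential `uD`. -/

namespace Vale.Agent.P370.H98

open MeasureTheory Set Filter Topology Asymptotics
open Vale.Agent.P363.Stmt (R3)
open Vale.Agent.P370.H115
open scoped ComplexConjugate Nat

noncomputable section

/-- the ring with phase `c` -/
def ringR (n : ℕ) (a : ℝ) (c : ℂ) (x : R3) : ℝ :=
  cn n * (c * (zet a x) ^ (n - 1)).re * Real.exp (-‖x‖ / n)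

theorem ringC_eqR (n : ℕ) (a : ℝ) : ringC n a = ringR n a 1 := by
  funext x; simp only [ringC, ringR, one_mul]

theorem ringS_eqR (n : ℕ) (a : ℝ) : ringS n a = ringR n a (-Complex.I) := by
  funext x
  have h1 : ∀ z : ℂ, (-Complex.I * z).re = z.im := fun z => by simp
  simp only [ringS, ringR, h1]

/-- `zet` as a continuous linear map -/
def zetL (a : ℝ) : R3 →L[ℝ] ℂ :=
  (innerSL ℝ ez).smulRight (1 : ℂ) + (innerSL ℝ (wvec a)).smulRight Complex.I

theorem inner_ez (x : R3) : inner ℝ ez x = x 2 := by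
  simp [ez, PiLp.inner_apply, Fin.sum_univ_three]

theorem inner_wvec (a : ℝ) (x : R3) : inner ℝ (wvec a) x = -Real.sin a * x 0 + Real.cos a * x 1 := by
  simp [wvec, PiLp.inner_apply, Fin.sum_univ_three]
  ring

theorem zetL_apply (a : ℝ) (x : R3) : zetL a x = zet a x := by
  simp only [zetL, add_apply, ContinuousLinearMap.smulRight_apply,
    innerSL_apply_apply, inner_ez, inner_wvec]
  apply Complex.ext <;> simp [zet, Complex.sin_ofReal_re, Complex.cos_ofReal_re]

theorem hasF_zet (a : ℝ) (x : R3) : HasFDerivAt (zet a) (zetL a) x := by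
  have := (zetL a).hasFDerivAt (x := x)
  have e : ⇑(zetL a) = zet a := by funext y; exact zetL_apply a y
  rwa [e] at this

theorem hasF_norm {x : R3} (hx : x ≠ 0) :
    HasFDerivAt (fun y : R3 => ‖y‖) (innerSL ℝ (‖x‖⁻¹ • x)) x := by
  have h1 : HasFDerivAt (fun y : R3 => ‖y‖ ^ 2) (2 • innerSL ℝ x) x := (hasStrictFDerivAt_norm_sq x).hasFDerivAt
  have hx' : ‖x‖ ≠ 0 := norm_ne_zero_iff.2 hx
  have h2 := h1.sqrt (by positivity)
  have e : (fun y : R3 => √(‖y‖ ^ 2)) = fun y => ‖y‖ := by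
    funext y; exact Real.sqrt_sq (norm_nonneg y)
  rw [e] at h2
  refine h2.congr_fderiv ?_
  ext v
  simp only [smul_apply, innerSL_apply_apply, Real.sqrt_sq (norm_nonneg x),
    inner_smul_left, smul_eq_mul, nsmul_eq_mul, conj_trivial]
  field_simp
  push_cast
  ring

theorem gR_zero {n : ℕ} (hn : 3 ≤ n) (a : ℝ) (c : ℂ) : gR n a c 0 = 0 := by
  unfold gR
  have : zet a 0 = 0 := by apply Complex.ext <;> simp [zet]
  rw [this, zero_pow (by omega)]
  simp

theorem hasF_ringR {n : ℕ} (hn : 4 ≤ n) (a : ℝ) {c : ℂ} (hc : ‖c‖ ≤ 1) (x : R3) :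
    HasFDerivAt (ringR n a c) (innerSL ℝ (gR n a c x)) x := by
  rcases eq_or_ne x 0 with rfl | hx
  · rw [gR_zero (by omega), map_zero]
    apply IsBigO.hasFDerivAt (n := n - 1) ?_ (by omega)
    simp only [sub_zero]
    apply IsBigO.of_bound (cn n)
    refine Eventually.of_forall fun y => ?_
    have hc0 : 0 ≤ cn n := (H207.cn_pos (by omega)).le
    unfold ringR
    rw [norm_mul, norm_mul, Real.norm_of_nonneg hc0, Real.norm_of_nonneg (Real.exp_pos _).le,
      Real.norm_of_nonneg (by positivity : 0 ≤ ‖y‖ ^ (n - 1)), Real.norm_eq_abs]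
    have h1 : |(c * zet a y ^ (n - 1)).re| ≤ ‖y‖ ^ (n - 1) := by
      refine (Complex.abs_re_le_norm _).trans ?_
      rw [norm_mul, norm_pow]
      have := H207.norm_zet_le a y
      calc ‖c‖ * ‖zet a y‖ ^ (n - 1) ≤ 1 * ‖y‖ ^ (n - 1) := by gcongr
        _ = _ := one_mul _
    have h2 : Real.exp (-‖y‖ / n) ≤ 1 := by
      apply Real.exp_le_one_iff.2
      have : 0 ≤ ‖y‖ / n := by positivity
      rw [neg_div]; linarith
    calc cn n * |(c * zet a y ^ (n - 1)).re| * Real.exp (-‖y‖ / n) ≤ cn n * ‖y‖ ^ (n - 1) * 1 := by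
          gcongr
      _ = _ := mul_one _
  · have hx' : ‖x‖ ≠ 0 := norm_ne_zero_iff.2 hx
    have hn0 : (n : ℝ) ≠ 0 := by
      have : (0 : ℝ) < n := by exact_mod_cast (by omega : 0 < n)
      exact this.ne'
    have h1 := ((hasF_zet a x).pow (n - 1)).const_mul c
    have h2 := Complex.reCLM.hasFDerivAt.comp x h1
    have h3 := ((hasF_norm hx).neg.mul_const (n : ℝ)⁻¹).exp
    have h4 := (h2.const_mul (cn n)).mul h3
    have e : ringR n a c = fun y => cn n * (Complex.reCLM ∘ fun y => c * zet a y ^ (n - 1)) y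
        * Real.exp (-‖y‖ * (n : ℝ)⁻¹) := by
      funext y
      simp only [ringR, Function.comp_apply, Complex.reCLM_apply, div_eq_mul_inv]
    rw [e]
    refine h4.congr_fderiv ?_
    ext v
    simp only [add_apply, smul_apply, innerSL_apply_apply,
      ContinuousLinearMap.comp_apply, Complex.reCLM_apply, neg_apply,
      smul_eq_mul, Function.comp_apply, nsmul_eq_mul, zetL_apply]
    unfold gR
    simp only [inner_smul_left, inner_sub_left, conj_trivial, inner_ez, inner_wvec]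
    have hz : (c * (((n - 1 : ℕ) : ℂ) * zet a x ^ (n - 1 - 1) * zet a v)).re
        = ((n : ℝ) - 1) * ((c * zet a x ^ (n - 2)).re * v 2
          - (c * zet a x ^ (n - 2)).im * (-Real.sin a * v 0 + Real.cos a * v 1)) := by
      have h5 : ((n - 1 : ℕ) : ℂ) = (((n : ℝ) - 1 : ℝ) : ℂ) := by
        rw [Nat.cast_sub (by omega)]; push_cast; ring
      have h6 : n - 1 - 1 = n - 2 := by omega
      rw [h5, h6]
      have h7 : c * ((((n : ℝ) - 1 : ℝ) : ℂ) * zet a x ^ (n - 2) * zet a v)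
          = (((n : ℝ) - 1 : ℝ) : ℂ) * ((c * zet a x ^ (n - 2)) * zet a v) := by ring
      rw [h7, Complex.re_ofReal_mul, Complex.mul_re]
      simp only [zet]
    simp only [hz]
    have h8 : Real.exp ((-fun y : R3 => ‖y‖) x * (n : ℝ)⁻¹) = Real.exp (-‖x‖ / n) := by
      simp [div_eq_mul_inv]
    rw [h8, div_eq_mul_inv (c * zet a x ^ (n - 1)).re, mul_inv]
    ring

/-! ### sup and Lipschitz bounds of the rings -/

theorem abs_ringR_le {n : ℕ} (hn : 2 ≤ n) (a : ℝ) {c : ℂ} (hc : ‖c‖ ≤ 1) (x : R3) :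
    |ringR n a c x| ≤ 1 := by
  have e : ringR n a c x = cn n * (c * H207.zE n a x).re := by
    unfold ringR H207.zE
    rw [← mul_assoc c, Complex.re_mul_ofReal]
    ring
  rw [e, abs_mul, abs_of_pos (H207.cn_pos (by omega))]
  refine le_trans ?_ (H207.cn_mul_le hn)
  have h0 := H207.cn_pos (by omega : 0 < n)
  have h1 : |(c * H207.zE n a x).re| ≤ ‖H207.zE n a x‖ := by
    refine (Complex.abs_re_le_norm _).trans ?_
    rw [norm_mul]
    exact mul_le_of_le_one_left (norm_nonneg _) hc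
  have h2 := H207.norm_zE_le (by omega : 0 < n) a x
  gcongr
  exact h1.trans h2

theorem ringR_lip {n : ℕ} (hn : 2 ≤ n) (a : ℝ) {c : ℂ} (hc : ‖c‖ ≤ 1) (x y : R3) :
    |ringR n a c x - ringR n a c y| ≤ 2 * ‖x - y‖ := by
  have e : ∀ x, ringR n a c x = cn n * (c * H207.zE n a x).re := by
    intro x
    unfold ringR H207.zE
    rw [← mul_assoc c, Complex.re_mul_ofReal]
    ring
  rw [e, e, ← mul_sub, abs_mul, abs_of_pos (H207.cn_pos (by omega)), ← Complex.sub_re, ← mul_sub]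
  have h0 := H207.cn_pos (by omega : 0 < n)
  have h1 : |(c * (H207.zE n a x - H207.zE n a y)).re| ≤ ‖H207.zE n a x - H207.zE n a y‖ := by
    refine (Complex.abs_re_le_norm _).trans ?_
    rw [norm_mul]
    exact mul_le_of_le_one_left (norm_nonneg _) hc
  have h2 := h1.trans (H207.zE_lip hn a x y)
  have h3 := H207.cn_mul_le' hn
  have hd := norm_nonneg (x - y)
  calc cn n * |(c * (H207.zE n a x - H207.zE n a y)).re|
      ≤ cn n * (2 * ((n : ℝ) ^ (n - 2) * (n - 1)!) * ‖x - y‖) := by gcongr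
    _ = 2 * (cn n * ((n : ℝ) ^ (n - 2) * (n - 1)!)) * ‖x - y‖ := by ring
    _ ≤ 2 * 1 * ‖x - y‖ := by gcongr
    _ = 2 * ‖x - y‖ := by ring

/-! ### products -/

/-- `F` is the gradient field of `f`, with weighted bound `B` -/
structure GW (f : R3 → ℝ) (F : R3 → R3) (B : ℝ) : Prop where
  hf : ∀ x, HasFDerivAt f (innerSL ℝ (F x)) x
  wb : WB F B

theorem GW.add {f g : R3 → ℝ} {F G : R3 → R3} {B C : ℝ} (h : GW f F B) (h' : GW g G C) :
    GW (fun x => f x + g x) (fun x => F x + G x) (B + C) :=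
  ⟨fun x => by rw [map_add]; exact (h.hf x).add (h'.hf x), h.wb.add h'.wb⟩

theorem GW.neg {f : R3 → ℝ} {F : R3 → R3} {B : ℝ} (h : GW f F B) :
    GW (fun x => -f x) (fun x => -F x) B :=
  ⟨fun x => by rw [map_neg]; exact (h.hf x).neg, h.wb.neg⟩

theorem GW.sub {f g : R3 → ℝ} {F G : R3 → R3} {B C : ℝ} (h : GW f F B) (h' : GW g G C) :
    GW (fun x => f x - g x) (fun x => F x - G x) (B + C) :=
  ⟨fun x => by rw [map_sub]; exact (h.hf x).sub (h'.hf x), h.wb.sub h'.wb⟩

theorem GW.const_mul {f : R3 → ℝ} {F : R3 → R3} {B : ℝ} (h : GW f F B) (c : ℝ) :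
    GW (fun x => c * f x) (fun x => c • F x) (|c| * B) :=
  ⟨fun x => by rw [map_smul]; exact (h.hf x).const_mul c, h.wb.const_smul c⟩

theorem GW.zero : GW (fun _ => 0) (fun _ => 0) 0 :=
  ⟨fun x => by rw [map_zero]; exact hasFDerivAt_const _ _, WB.zero⟩

theorem GW.sum {ι : Type*} (s : Finset ι) {f : ι → R3 → ℝ} {F : ι → R3 → R3}
    {B : ι → ℝ} (h : ∀ i ∈ s, GW (f i) (F i) (B i)) :
    GW (fun x => ∑ i ∈ s, f i x) (fun x => ∑ i ∈ s, F i x) (∑ i ∈ s, B i) := by
  classical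
  induction s using Finset.induction_on with
  | empty => simpa using GW.zero
  | insert a s ha ih =>
    simp only [Finset.sum_insert ha]
    exact (h a (Finset.mem_insert_self a s)).add (ih fun i hi => h i (Finset.mem_insert_of_mem hi))

theorem GW.mono {f : R3 → ℝ} {F : R3 → R3} {B C : ℝ} (h : GW f F B) (hBC : B ≤ C) : GW f F C :=
  ⟨h.hf, h.wb.mono hBC⟩

/-- products of two ring functions -/
theorem gw_mul {n : ℕ} (hn : 4 ≤ n) (a b : ℝ) {c d : ℂ} (hc : ‖c‖ ≤ 1) (hd : ‖d‖ ≤ 1) :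
    GW (fun x => ringR n a c x * ringR n b d x)
      (fun x => ringR n a c x • gR n b d x + ringR n b d x • gR n a c x) (6 * (n : ℝ) ^ 18) := by
  refine ⟨fun x => ?_, ?_⟩
  · rw [map_add, map_smul, map_smul]
    exact (hasF_ringR hn a hc x).mul (hasF_ringR hn b hd x)
  · have h1 := (wb_gR hn b hd).mul (abs_ringR_le (by omega : 2 ≤ n) a hc)
      (ringR_lip (by omega : 2 ≤ n) a hc)
    have h2 := (wb_gR hn a hc).mul (abs_ringR_le (by omega : 2 ≤ n) b hd)
      (ringR_lip (by omega : 2 ≤ n) b hd)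
    refine (h1.add h2).mono (le_of_eq (by ring))

/-- gradient of the designed potential (interface form `H305.uD`) -/
def gD (n m : ℕ) (σ : ℝ) (τ : ℕ → ℕ → ℝ) (x : R3) : R3 :=
  -(σ • ∑ i ∈ Finset.range m,
      ((2 * rC n m i x) • gradC n (rang m i) x - (2 * rS n m i x) • gradS n (rang m i) x)) -
    ∑ i ∈ Finset.range m, ∑ j ∈ Finset.range m, if i < j then
      τ i j • (rC n m i x • gradC n (rang m j) x + rC n m j x • gradC n (rang m i) x) else 0

theorem gw_CC {n : ℕ} (hn : 4 ≤ n) (a b : ℝ) :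
    GW (fun x => ringC n a x * ringC n b x)
      (fun x => ringC n a x • gradC n b x + ringC n b x • gradC n a x) (6 * (n : ℝ) ^ 18) := by
  have h := gw_mul hn a b (c := 1) (d := 1) (by simp) (by simp)
  rw [gradC_eq, gradC_eq, ringC_eqR, ringC_eqR]
  exact h

theorem gw_SS {n : ℕ} (hn : 4 ≤ n) (a b : ℝ) :
    GW (fun x => ringS n a x * ringS n b x)
      (fun x => ringS n a x • gradS n b x + ringS n b x • gradS n a x) (6 * (n : ℝ) ^ 18) := by
  have h := gw_mul hn a b (c := -Complex.I) (d := -Complex.I) (by simp) (by simp)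
  rw [gradS_eq, gradS_eq, ringS_eqR, ringS_eqR]
  exact h

theorem gw_sel {n : ℕ} (hn : 4 ≤ n) (a : ℝ) :
    GW (fun x => ringC n a x ^ 2 - ringS n a x ^ 2)
      (fun x => (2 * ringC n a x) • gradC n a x - (2 * ringS n a x) • gradS n a x)
      (12 * (n : ℝ) ^ 18) := by
  have h := (gw_CC hn a a).sub (gw_SS hn a a)
  have e1 : (fun x => ringC n a x ^ 2 - ringS n a x ^ 2)
      = fun x => ringC n a x * ringC n a x - ringS n a x * ringS n a x := by
    funext x; ring
  have e2 : (fun x => (2 * ringC n a x) • gradC n a x - (2 * ringS n a x) • gradS n a x)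
      = fun x => (ringC n a x • gradC n a x + ringC n a x • gradC n a x)
        - (ringS n a x • gradS n a x + ringS n a x • gradS n a x) := by
    funext x
    rw [two_mul, two_mul, add_smul, add_smul]
  rw [e1, e2]
  exact h.mono (le_of_eq (by ring))

/-- the total hopping amplitude -/
def tauSum (m : ℕ) (τ : ℕ → ℕ → ℝ) : ℝ := ∑ i ∈ Finset.range m, ∑ j ∈ Finset.range m, |τ i j|

theorem tauSum_nonneg (m : ℕ) (τ : ℕ → ℕ → ℝ) : 0 ≤ tauSum m τ :=
  Finset.sum_nonneg fun _ _ => Finset.sum_nonneg fun _ _ => abs_nonneg _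

theorem gw_uD {n m : ℕ} (hn : 4 ≤ n) (hm : m ≤ n) (σ : ℝ) (τ : ℕ → ℕ → ℝ) :
    GW (H305.uD n m σ τ) (gD n m σ τ) ((n : ℝ) ^ 21 * (|σ| + tauSum m τ)) := by
  have hn4 : (4 : ℝ) ≤ n := by exact_mod_cast hn
  have hm' : (m : ℝ) ≤ n := by exact_mod_cast hm
  have h1 := ((GW.sum (Finset.range m) fun i _ => gw_sel hn (rang m i)).const_mul σ).neg
  have h2 : GW (fun x => ∑ i ∈ Finset.range m, ∑ j ∈ Finset.range m,
        if i < j then τ i j * (rC n m i x * rC n m j x) else 0)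
      (fun x => ∑ i ∈ Finset.range m, ∑ j ∈ Finset.range m, if i < j then
        τ i j • (rC n m i x • gradC n (rang m j) x + rC n m j x • gradC n (rang m i) x) else 0)
      (∑ i ∈ Finset.range m, ∑ j ∈ Finset.range m, |τ i j| * (6 * (n : ℝ) ^ 18)) := by
    refine GW.sum _ fun i _ => GW.sum _ fun j _ => ?_
    by_cases hij : i < j
    · simp only [if_pos hij]
      exact (gw_CC hn (rang m i) (rang m j)).const_mul (τ i j)
    · simp only [if_neg hij]
      exact GW.zero.mono (by positivity)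
  refine (h1.sub h2).mono ?_
  rw [Finset.sum_const, Finset.card_range, nsmul_eq_mul]
  have e : ∑ i ∈ Finset.range m, ∑ j ∈ Finset.range m, |τ i j| * (6 * (n : ℝ) ^ 18)
      = tauSum m τ * (6 * (n : ℝ) ^ 18) := by
    simp only [tauSum, Finset.sum_mul]
  rw [e]
  have p18 : (0 : ℝ) < (n : ℝ) ^ 18 := by positivity
  have p21 : (n : ℝ) ^ 21 = n ^ 3 * (n : ℝ) ^ 18 := by ring
  have hs := abs_nonneg σ
  have ht := tauSum_nonneg m τ
  have h3 : (m : ℝ) * (12 * (n : ℝ) ^ 18) ≤ (n : ℝ) ^ 21 := by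
    rw [p21]
    have h42 : (16 : ℝ) ≤ (n : ℝ) ^ 2 := by nlinarith
    have : (m : ℝ) * 12 ≤ (n : ℝ) ^ 3 := by
      have h5 : (n : ℝ) ^ 3 = n ^ 2 * n := by ring
      rw [h5]
      have h6 : (16 : ℝ) * n ≤ n ^ 2 * n := by gcongr
      linarith
    have h7 := mul_le_mul_of_nonneg_right this p18.le
    linarith
  have h4 : 6 * (n : ℝ) ^ 18 ≤ (n : ℝ) ^ 21 := by
    rw [p21]
    have : (6 : ℝ) ≤ (n : ℝ) ^ 3 := by
      have h43 : (4 : ℝ) ^ 3 ≤ (n : ℝ) ^ 3 := by gcongr
      linarith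
    have h7 := mul_le_mul_of_nonneg_right this p18.le
    linarith
  have h8 := mul_le_mul_of_nonneg_left h3 hs
  have h9 := mul_le_mul_of_nonneg_left h4 ht
  linarith

theorem hasGradient_uD {n m : ℕ} (hn : 4 ≤ n) (hm : m ≤ n) (σ : ℝ) (τ : ℕ → ℕ → ℝ) (x : R3) :
    HasGradientAt (H305.uD n m σ τ) (gD n m σ τ x) x := by
  have h := (gw_uD hn hm σ τ).hf x
  rw [hasGradientAt_iff_hasFDerivAt]
  exact h

theorem gradient_uD {n m : ℕ} (hn : 4 ≤ n) (hm : m ≤ n) (σ : ℝ) (τ : ℕ → ℕ → ℝ) (x : R3) :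
    gradient (H305.uD n m σ τ) x = gD n m σ τ x := (hasGradient_uD hn hm σ τ x).gradient

end

end Vale.Agent.P370.H98
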