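import Vale.Agent.P370.H98.Disp
import Vale.Agent.P370.H890.Pair

/-! **The displacement data of the programmed potential**: `DispuStmt` is proved. -/

namespace Vale.Agent.P370.H98

open MeasureTheory Set Filter Topology
open Vale.Agent.P363.Stmt (R3)
open Vale.Agent.P370.H115
open scoped Nat

noncomputable section

theorem WB.continuous {F : R3 → R3} {B : ℝ} (h : WB F B) : Continuous F := by
  have hB := h.nonneg
  rw [continuous_iff_continuousAt]
  intro x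
  rw [Metric.continuousAt_iff]
  intro ε hε
  refine ⟨min 2 (ε / (B + 1)), by positivity, fun y hy => ?_⟩
  rw [dist_comm, dist_eq_norm] at hy ⊢
  have h1 : ‖x - y‖ ≤ 2 := (hy.trans_le (min_le_left _ _)).le
  have h2 := h.lip x y h1
  have h3 : ‖x - y‖ < ε / (B + 1) := hy.trans_le (min_le_right _ _)
  have h4 : B / (1 + ‖x‖) ^ 5 ≤ B := by
    apply div_le_self hB
    have : 1 ≤ 1 + ‖x‖ := by linarith [norm_nonneg x]
    exact one_le_pow₀ this
  rw [lt_div_iff₀ (by linarith)] at h3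
  have h5 := norm_nonneg (x - y)
  calc ‖F x - F y‖ ≤ B / (1 + ‖x‖) ^ 5 * ‖x - y‖ := h2
    _ ≤ B * ‖x - y‖ := by gcongr
    _ < ε := by nlinarith

theorem tendsto_ringR {n : ℕ} (hn : 4 ≤ n) (a : ℝ) {c : ℂ} (hc : ‖c‖ ≤ 1) :
    Tendsto (ringR n a c) (cocompact R3) (𝓝 0) := by
  have h := wb_re hn a hc (k := n - 1) le_rfl
  apply H993.tendsto_of_bound (M := 8192 * (n : ℝ) ^ 9)
  intro y
  have h1 := h.le y
  have e : ringR n a c y = cn n * (c * zP n a (n - 1) y).re := by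
    unfold ringR zP
    rw [← mul_assoc c, Complex.re_mul_ofReal]
    ring
  rw [e, ← Real.norm_eq_abs]
  refine h1.trans ?_
  have h2 : 1 ≤ 1 + ‖y‖ := by linarith [norm_nonneg y]
  have h3 : 1 + ‖y‖ ≤ (1 + ‖y‖) ^ 5 := le_self_pow₀ h2 (by norm_num)
  gcongr

theorem tendsto_ringC {n : ℕ} (hn : 4 ≤ n) (a : ℝ) :
    Tendsto (ringC n a) (cocompact R3) (𝓝 0) := by
  rw [ringC_eqR]; exact tendsto_ringR hn a (by simp)

theorem tendsto_ringS {n : ℕ} (hn : 4 ≤ n) (a : ℝ) :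
    Tendsto (ringS n a) (cocompact R3) (𝓝 0) := by
  rw [ringS_eqR]; exact tendsto_ringR hn a (by simp)

theorem abs_ringC_le {n : ℕ} (hn : 2 ≤ n) (a : ℝ) (x : R3) : |ringC n a x| ≤ 1 := by
  rw [ringC_eqR]; exact abs_ringR_le hn a (by simp) x

theorem abs_ringS_le {n : ℕ} (hn : 2 ≤ n) (a : ℝ) (x : R3) : |ringS n a x| ≤ 1 := by
  rw [ringS_eqR]; exact abs_ringR_le hn a (by simp) x

/-- weighted gradients decaying at infinity satisfy the representation formula -/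
theorem GW.dispData {f : R3 → ℝ} {F : R3 → R3} {B : ℝ} (h : GW f F B)
    (h0 : Tendsto f (cocompact R3) (𝓝 0)) : H198.DispData f F B where
  nonneg := h.wb.nonneg
  grad_le := h.wb.le
  lip := h.wb.lip
  repr x := by
    have hB := h.wb.nonneg
    have h1 := H993.newton_delta (u := f) (u' := fun y => innerSL ℝ (F y)) h.hf
      ((innerSL ℝ).continuous.comp h.wb.continuous) (M := B) (fun y => by
        rw [innerSL_apply_norm]
        refine (h.wb.le y).trans ?_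
        have h2 : 1 ≤ 1 + ‖y‖ := by linarith [norm_nonneg y]
        have h3 : (1 + ‖y‖) ^ 2 ≤ (1 + ‖y‖) ^ 5 := pow_le_pow_right₀ h2 (by norm_num)
        gcongr) h0 x
    rw [← h1]
    simp only [innerSL_apply_apply]

/-! ### the coefficients -/

theorem div_kap_le {n : ℕ} (hn : 4 ≤ n) {S : ℝ} (hS : 0 ≤ S) : |-(S / kap n)| ≤ (n : ℝ) ^ 9 * S := by
  have hk := (kapStmt n (by omega)).2.1
  have hn0 : (0 : ℝ) < n := by exact_mod_cast (by omega : 0 < n)
  have hn4 : (4 : ℝ) ≤ n := by exact_mod_cast hn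
  have hpi := Real.pi_pos
  have hpi4 := Real.pi_le_four
  have hlow : 0 < 1 / (16 * Real.pi * (n : ℝ) ^ 6) := by positivity
  have hkp : 0 < kap n := hlow.trans_le hk
  rw [abs_neg, abs_of_nonneg (by positivity), div_le_iff₀ hkp]
  have h1 : 1 ≤ (n : ℝ) ^ 9 * kap n := by
    have h2 : 1 ≤ (n : ℝ) ^ 9 * (1 / (16 * Real.pi * (n : ℝ) ^ 6)) := by
      rw [mul_one_div, le_div_iff₀ (by positivity), one_mul]
      have h43 : (4 : ℝ) ^ 3 ≤ (n : ℝ) ^ 3 := by gcongr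
      have e : (n : ℝ) ^ 9 = n ^ 3 * (n : ℝ) ^ 6 := by ring
      rw [e]
      have h5 : 16 * Real.pi ≤ (n : ℝ) ^ 3 := by linarith
      gcongr
    exact h2.trans (by gcongr)
  nlinarith

theorem div_Mab_le {n m : ℕ} (hn : 4 ≤ n) (a b : ℕ) {t τ : ℝ} (ht : |t| ≤ τ) :
    |t / Mab n m a b| ≤ (n : ℝ) ^ 18 * τ := by
  have hk := H890.pair_stmt n m a b (by omega)
  have hn0 : (0 : ℝ) < n := by exact_mod_cast (by omega : 0 < n)
  have hn4 : (4 : ℝ) ≤ n := by exact_mod_cast hn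
  have hτ : 0 ≤ τ := (abs_nonneg _).trans ht
  have hlow : 0 < 1 / (100000 * (n : ℝ) ^ 9) := by positivity
  have hkp : 0 < Mab n m a b := hlow.trans_le hk
  rw [abs_div, abs_of_pos hkp, div_le_iff₀ hkp]
  have h1 : 1 ≤ (n : ℝ) ^ 18 * Mab n m a b := by
    have h2 : 1 ≤ (n : ℝ) ^ 18 * (1 / (100000 * (n : ℝ) ^ 9)) := by
      rw [mul_one_div, le_div_iff₀ (by positivity), one_mul]
      have h43 : (4 : ℝ) ^ 9 ≤ (n : ℝ) ^ 9 := by gcongr
      have e : (n : ℝ) ^ 18 = n ^ 9 * (n : ℝ) ^ 9 := by ring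
      rw [e]
      have h5 : (100000 : ℝ) ≤ (n : ℝ) ^ 9 := by
        refine le_trans ?_ h43
        norm_num
      gcongr
    exact h2.trans (by gcongr)
  nlinarith

/-! ### `uS` and `uT` -/

theorem gw_uS {n m : ℕ} (hn : 4 ≤ n) (hm : m ≤ n) {S : ℝ} (hS : 0 ≤ S) :
    GW (uS n m S) (gUS n m S) ((n : ℝ) ^ 40 * S) := by
  have hn4 : (4 : ℝ) ≤ n := by exact_mod_cast hn
  have hn1 : (1 : ℝ) ≤ n := by linarith
  have hm' : (m : ℝ) ≤ n := by exact_mod_cast hm
  have h1 := (GW.sum (Finset.range m) fun i _ => gw_sel hn (rang m i)).const_mul (-(S / kap n))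
  refine GW.mono h1 ?_
  rw [Finset.sum_const, Finset.card_range, nsmul_eq_mul]
  have h2 := div_kap_le hn hS
  have h3 : (m : ℝ) * (12 * (n : ℝ) ^ 18) ≤ (n : ℝ) ^ 21 := by
    have p18 : (0 : ℝ) < (n : ℝ) ^ 18 := by positivity
    have h42 : (16 : ℝ) ≤ (n : ℝ) ^ 2 := by nlinarith
    have h5 : (n : ℝ) ^ 21 = n ^ 2 * n * (n : ℝ) ^ 18 := by ring
    have h6 : (16 : ℝ) * n ≤ n ^ 2 * n := by gcongr
    have h7 : (m : ℝ) * 12 ≤ n ^ 2 * n := by linarith
    rw [h5, ← mul_assoc]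
    exact mul_le_mul_of_nonneg_right h7 p18.le
  calc |(-(S / kap n))| * ((m : ℝ) * (12 * (n : ℝ) ^ 18)) ≤ ((n : ℝ) ^ 9 * S) * (n : ℝ) ^ 21 := by
        gcongr
    _ = (n : ℝ) ^ 30 * S := by ring
    _ ≤ (n : ℝ) ^ 40 * S := by
        gcongr
        norm_num

theorem gw_uT {n m : ℕ} (hn : 4 ≤ n) (hm : m ≤ n) {τ : ℝ} (hτ : 0 ≤ τ) {T : ℕ → ℕ → ℝ}
    (hT : ∀ a b, |T a b| ≤ τ) :
    GW (uT n m T) (gUT n m T) ((n : ℝ) ^ 40 * τ) := by
  have hn4 : (4 : ℝ) ≤ n := by exact_mod_cast hn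
  have hn1 : (1 : ℝ) ≤ n := by linarith
  have hm' : (m : ℝ) ≤ n := by exact_mod_cast hm
  have h6 : 6 * (n : ℝ) ^ 18 ≤ (n : ℝ) ^ 20 := by
    have h42 : (16 : ℝ) ≤ (n : ℝ) ^ 2 := by nlinarith
    have e : (n : ℝ) ^ 20 = n ^ 2 * (n : ℝ) ^ 18 := by ring
    rw [e]
    gcongr
    linarith
  have h1 : GW (fun x => ∑ b ∈ Finset.range m, ∑ a ∈ Finset.range b,
        T a b / Mab n m a b * (rC n m a x * rC n m b x))
      (fun x => ∑ b ∈ Finset.range m, ∑ a ∈ Finset.range b, (T a b / Mab n m a b) •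
        (rC n m b x • gradC n (rang m a) x + rC n m a x • gradC n (rang m b) x))
      (∑ b ∈ Finset.range m, ∑ a ∈ Finset.range b, (n : ℝ) ^ 38 * τ) := by
    refine GW.sum _ fun b _ => GW.sum _ fun a _ => ?_
    have h2 := (gw_CC hn (rang m a) (rang m b)).const_mul (T a b / Mab n m a b)
    have e : (fun x => (T a b / Mab n m a b) •
        (rC n m b x • gradC n (rang m a) x + rC n m a x • gradC n (rang m b) x))
        = fun x => (T a b / Mab n m a b) •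
        (ringC n (rang m a) x • gradC n (rang m b) x + ringC n (rang m b) x • gradC n (rang m a) x) := by
      funext x; rw [add_comm]; rfl
    rw [e]
    refine GW.mono h2 ?_
    have h3 := div_Mab_le (m := m) hn a b (hT a b)
    calc |T a b / Mab n m a b| * (6 * (n : ℝ) ^ 18) ≤ ((n : ℝ) ^ 18 * τ) * (n : ℝ) ^ 20 := by gcongr
      _ = (n : ℝ) ^ 38 * τ := by ring
  refine GW.mono h1.neg ?_
  have h7 : ∑ b ∈ Finset.range m, ∑ a ∈ Finset.range b, (n : ℝ) ^ 38 * τ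
      ≤ ∑ b ∈ Finset.range m, n * ((n : ℝ) ^ 38 * τ) := by
    refine Finset.sum_le_sum fun b hb => ?_
    rw [Finset.sum_const, Finset.card_range, nsmul_eq_mul]
    have : (b : ℝ) ≤ n := by
      have := Finset.mem_range.1 hb
      exact_mod_cast (by omega : b ≤ n)
    gcongr
  refine h7.trans ?_
  rw [Finset.sum_const, Finset.card_range, nsmul_eq_mul]
  calc (m : ℝ) * (n * ((n : ℝ) ^ 38 * τ)) ≤ n * (n * ((n : ℝ) ^ 38 * τ)) := by gcongr
    _ = (n : ℝ) ^ 40 * τ := by ring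

theorem tendsto_uS {n : ℕ} (hn : 4 ≤ n) (m : ℕ) (S : ℝ) : Tendsto (uS n m S) (cocompact R3) (𝓝 0) := by
  have h1 : Tendsto (fun x => -(S / kap n) * ∑ i ∈ Finset.range m, (rC n m i x ^ 2 - rS n m i x ^ 2))
      (cocompact R3) (𝓝 (-(S / kap n) * ∑ i ∈ Finset.range m, ((0 : ℝ) ^ 2 - (0 : ℝ) ^ 2))) := by
    refine Tendsto.const_mul _ (tendsto_finsetSum _ fun i _ => ?_)
    exact ((tendsto_ringC hn (rang m i)).pow 2).sub ((tendsto_ringS hn (rang m i)).pow 2)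
  simp only [sub_self, Finset.sum_const_zero, mul_zero] at h1
  exact h1

theorem tendsto_uT {n : ℕ} (hn : 4 ≤ n) (m : ℕ) (T : ℕ → ℕ → ℝ) :
    Tendsto (uT n m T) (cocompact R3) (𝓝 0) := by
  have h1 : Tendsto (fun x => -∑ b ∈ Finset.range m, ∑ a ∈ Finset.range b,
        T a b / Mab n m a b * (rC n m a x * rC n m b x))
      (cocompact R3) (𝓝 (-∑ b ∈ Finset.range m, ∑ a ∈ Finset.range b,
        T a b / Mab n m a b * ((0 : ℝ) * 0))) := by
    refine (tendsto_finsetSum _ fun b _ => tendsto_finsetSum _ fun a _ => ?_).neg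
    exact ((tendsto_ringC hn (rang m a)).mul (tendsto_ringC hn (rang m b))).const_mul _
  simp only [Finset.sum_const_zero, mul_zero, neg_zero] at h1
  exact h1

theorem abs_uS_le {n m : ℕ} (hn : 4 ≤ n) (hm : m ≤ n) {S : ℝ} (hS : 0 ≤ S) (x : R3) :
    |uS n m S x| ≤ (n : ℝ) ^ 40 * S := by
  have hn4 : (4 : ℝ) ≤ n := by exact_mod_cast hn
  have hn1 : (1 : ℝ) ≤ n := by linarith
  have hm' : (m : ℝ) ≤ n := by exact_mod_cast hm
  unfold uS
  rw [abs_mul]
  have h1 : |∑ i ∈ Finset.range m, (rC n m i x ^ 2 - rS n m i x ^ 2)| ≤ n := by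
    refine (Finset.abs_sum_le_sum_abs _ _).trans ?_
    have h2 : ∑ i ∈ Finset.range m, |rC n m i x ^ 2 - rS n m i x ^ 2| ≤ ∑ i ∈ Finset.range m, (1 : ℝ) := by
      refine Finset.sum_le_sum fun i _ => ?_
      have h3 := abs_ringC_le (by omega : 2 ≤ n) (rang m i) x
      have h4 := abs_ringS_le (by omega : 2 ≤ n) (rang m i) x
      have h5 : rC n m i x ^ 2 ≤ 1 := (sq_le_one_iff_abs_le_one _).2 h3
      have h6 : rS n m i x ^ 2 ≤ 1 := (sq_le_one_iff_abs_le_one _).2 h4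
      rw [abs_le]
      constructor <;> nlinarith [sq_nonneg (rC n m i x), sq_nonneg (rS n m i x)]
    refine h2.trans ?_
    simpa using hm'
  calc |(-(S / kap n))| * |∑ i ∈ Finset.range m, (rC n m i x ^ 2 - rS n m i x ^ 2)|
      ≤ ((n : ℝ) ^ 9 * S) * n := by
        have := div_kap_le hn hS
        gcongr
    _ = (n : ℝ) ^ 10 * S := by ring
    _ ≤ (n : ℝ) ^ 40 * S := by
        gcongr
        norm_num

theorem abs_uT_le {n m : ℕ} (hn : 4 ≤ n) (hm : m ≤ n) {τ : ℝ} (hτ : 0 ≤ τ) {T : ℕ → ℕ → ℝ}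
    (hT : ∀ a b, |T a b| ≤ τ) (x : R3) : |uT n m T x| ≤ (n : ℝ) ^ 40 * τ := by
  have hn4 : (4 : ℝ) ≤ n := by exact_mod_cast hn
  have hn1 : (1 : ℝ) ≤ n := by linarith
  have hm' : (m : ℝ) ≤ n := by exact_mod_cast hm
  unfold uT
  rw [abs_neg]
  refine (Finset.abs_sum_le_sum_abs _ _).trans ?_
  have h7 : ∑ b ∈ Finset.range m, |∑ a ∈ Finset.range b, T a b / Mab n m a b * (rC n m a x * rC n m b x)|
      ≤ ∑ b ∈ Finset.range m, n * ((n : ℝ) ^ 18 * τ) := by
    refine Finset.sum_le_sum fun b hb => ?_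
    refine (Finset.abs_sum_le_sum_abs _ _).trans ?_
    have h8 : ∑ a ∈ Finset.range b, |T a b / Mab n m a b * (rC n m a x * rC n m b x)|
        ≤ ∑ a ∈ Finset.range b, (n : ℝ) ^ 18 * τ := by
      refine Finset.sum_le_sum fun a _ => ?_
      rw [abs_mul, abs_mul]
      have h1 := div_Mab_le (m := m) hn a b (hT a b)
      have h3 : |rC n m a x| ≤ 1 := abs_ringC_le (by omega : 2 ≤ n) (rang m a) x
      have h4 : |rC n m b x| ≤ 1 := abs_ringC_le (by omega : 2 ≤ n) (rang m b) x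
      calc |T a b / Mab n m a b| * (|rC n m a x| * |rC n m b x|)
          ≤ ((n : ℝ) ^ 18 * τ) * (1 * 1) := by gcongr
        _ = _ := by ring
    refine h8.trans ?_
    rw [Finset.sum_const, Finset.card_range, nsmul_eq_mul]
    have : (b : ℝ) ≤ n := by
      have := Finset.mem_range.1 hb
      exact_mod_cast (by omega : b ≤ n)
    gcongr
  refine h7.trans ?_
  rw [Finset.sum_const, Finset.card_range, nsmul_eq_mul]
  calc (m : ℝ) * (n * ((n : ℝ) ^ 18 * τ)) ≤ n * (n * ((n : ℝ) ^ 18 * τ)) := by gcongr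
    _ = (n : ℝ) ^ 20 * τ := by ring
    _ ≤ (n : ℝ) ^ 40 * τ := by
        gcongr
        norm_num

/-- **R2a (5)**: the displacement data of the programmed potential -/
theorem dispuStmt : DispuStmt := by
  refine ⟨40, fun n m S τ T hn _ hm hS hτ hT => ⟨?_, abs_uT_le hn hm hτ hT, abs_uS_le hn hm hS⟩⟩
  have h1 := (gw_uS hn hm hS).add (gw_uT hn hm hτ hT)
  rw [← mul_add] at h1
  refine h1.dispData ?_
  have h2 := (tendsto_uS hn m S).add (tendsto_uT hn m T)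
  rw [add_zero] at h2
  exact h2

end

end Vale.Agent.P370.H98
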