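import Vale.Agent.P370.H98.R2aDefs
import Vale.Agent.P370.H207.Ring

/-! Gradients of the ring orbitals: values, decay and local Lipschitz bounds with weights. -/

namespace Vale.Agent.P370.H98

open MeasureTheory Set Filter Topology
open Vale.Agent.P363.Stmt (R3)
open Vale.Agent.P370.H115
open scoped ComplexConjugate Nat

noncomputable section

/-- `zet^k e^{-r/n}` -/
def zP (n : ℕ) (a : ℝ) (k : ℕ) (x : R3) : ℂ := zet a x ^ k * (Real.exp (-‖x‖ / n) : ℂ)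

theorem zP_norm (n : ℕ) (a : ℝ) (k : ℕ) (x : R3) :
    ‖zP n a k x‖ ≤ ‖x‖ ^ k * Real.exp (-‖x‖ / n) := by
  unfold zP
  rw [norm_mul, norm_pow, Complex.norm_real, Real.norm_of_nonneg (Real.exp_pos _).le]
  have := H207.norm_zet_le a x
  gcongr

theorem exp_diff_le {a b : ℝ} : |Real.exp (-a) - Real.exp (-b)| ≤ Real.exp (-min a b) * |a - b| := by
  rcases le_total a b with h | h
  · rw [min_eq_left h, abs_of_nonneg (sub_nonneg.2 (Real.exp_le_exp.2 (by linarith))),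
      abs_of_nonpos (by linarith)]
    have h1 : Real.exp (-b) = Real.exp (-a) * Real.exp (-(b - a)) := by
      rw [← Real.exp_add]; congr 1; ring
    rw [h1]
    have h2 := Real.add_one_le_exp (-(b - a))
    have h3 := Real.exp_pos (-a)
    nlinarith
  · rw [min_eq_right h, abs_of_nonpos (sub_nonpos.2 (Real.exp_le_exp.2 (by linarith))),
      abs_of_nonneg (by linarith)]
    have h1 : Real.exp (-a) = Real.exp (-b) * Real.exp (-(a - b)) := by
      rw [← Real.exp_add]; congr 1; ring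
    rw [h1]
    have h2 := Real.add_one_le_exp (-(a - b))
    have h3 := Real.exp_pos (-b)
    nlinarith

theorem exp_two_le : Real.exp 2 ≤ 8 := by
  have h := Real.exp_one_lt_d9
  have : Real.exp 2 = Real.exp 1 * Real.exp 1 := by rw [← Real.exp_add]; norm_num
  rw [this]
  have := Real.exp_pos 1
  nlinarith

theorem zP_lip {n : ℕ} (hn : 1 ≤ n) (a : ℝ) (k : ℕ) {x y : R3} (h : ‖x - y‖ ≤ 2) :
    ‖zP n a k x - zP n a k y‖ ≤ 8 * ((k * (max ‖x‖ ‖y‖) ^ (k - 1) + (max ‖x‖ ‖y‖) ^ k)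
      * Real.exp (-(max ‖x‖ ‖y‖) / n)) * ‖x - y‖ := by
  set M := max ‖x‖ ‖y‖ with hM
  have hM0 : 0 ≤ M := le_max_of_le_left (norm_nonneg _)
  have hn0 : (1 : ℝ) ≤ n := by exact_mod_cast hn
  have hxM : ‖x‖ ≤ M := le_max_left _ _
  have hyM : ‖y‖ ≤ M := le_max_right _ _
  have hxy : |‖x‖ - ‖y‖| ≤ ‖x - y‖ := abs_norm_sub_norm_le x y
  have hlow : M - 2 ≤ ‖x‖ ∧ M - 2 ≤ ‖y‖ := by
    have := abs_le.1 (hxy.trans h)
    rcases max_cases ‖x‖ ‖y‖ with ⟨h1, h2⟩ | ⟨h1, h2⟩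
    · rw [hM, h1]; constructor <;> linarith
    · rw [hM, h1]; constructor <;> linarith
  have hexp : ∀ r : ℝ, M - 2 ≤ r → Real.exp (-r / n) ≤ 8 * Real.exp (-M / n) := by
    intro r hr
    have h1 : Real.exp (-r / n) ≤ Real.exp (2 + -M / n) := by
      apply Real.exp_le_exp.2
      have h2 : (M - r) / n ≤ 2 := by
        rw [div_le_iff₀ (by linarith)]
        nlinarith
      have h3 : 2 + -M / n - -r / n = 2 - (M - r) / n := by ring
      linarith
    rw [Real.exp_add] at h1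
    have := exp_two_le
    have h4 := Real.exp_pos (-M / n)
    nlinarith
  have e : zP n a k x - zP n a k y = (zet a x ^ k - zet a y ^ k) * (Real.exp (-‖x‖ / n) : ℂ)
      + zet a y ^ k * ((Real.exp (-‖x‖ / n) - Real.exp (-‖y‖ / n) : ℝ) : ℂ) := by
    unfold zP; push_cast; ring
  rw [e]
  refine (norm_add_le _ _).trans ?_
  rw [norm_mul, norm_mul, Complex.norm_real, Complex.norm_real, norm_pow,
    Real.norm_of_nonneg (Real.exp_pos _).le, Real.norm_eq_abs]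
  have h1 := H207.pow_sub_pow_norm_le (zet a x) (zet a y) M ((H207.norm_zet_le a x).trans hxM)
    ((H207.norm_zet_le a y).trans hyM) k
  rw [H207.zet_sub] at h1
  have h2 : ‖zet a x ^ k - zet a y ^ k‖ ≤ k * M ^ (k - 1) * ‖x - y‖ := by
    refine h1.trans ?_
    have := H207.norm_zet_le a (x - y)
    gcongr
  have h3 : ‖zet a y‖ ^ k ≤ M ^ k := by
    have := (H207.norm_zet_le a y).trans hyM
    gcongr
  have h4 : |Real.exp (-‖x‖ / n) - Real.exp (-‖y‖ / n)| ≤ 8 * Real.exp (-M / n) * ‖x - y‖ := by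
    have h5 := exp_diff_le (a := ‖x‖ / n) (b := ‖y‖ / n)
    rw [← neg_div, ← neg_div] at h5
    refine h5.trans ?_
    have h6 : Real.exp (-min (‖x‖ / n) (‖y‖ / n)) ≤ 8 * Real.exp (-M / n) := by
      rcases min_cases (‖x‖ / (n : ℝ)) (‖y‖ / n) with ⟨h7, -⟩ | ⟨h7, -⟩
      · rw [h7, ← neg_div]; exact hexp _ hlow.1
      · rw [h7, ← neg_div]; exact hexp _ hlow.2
    have h8 : |‖x‖ / n - ‖y‖ / n| ≤ ‖x - y‖ := by
      rw [← sub_div, abs_div, abs_of_pos (by linarith : (0 : ℝ) < n)]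
      rw [div_le_iff₀ (by linarith)]
      nlinarith [norm_nonneg (x - y)]
    have h9 := Real.exp_pos (-M / n)
    gcongr
  have h5 := hexp _ hlow.1
  have hE := Real.exp_pos (-M / n)
  have hd := norm_nonneg (x - y)
  calc ‖zet a x ^ k - zet a y ^ k‖ * Real.exp (-‖x‖ / n)
        + ‖zet a y‖ ^ k * |Real.exp (-‖x‖ / n) - Real.exp (-‖y‖ / n)|
      ≤ (k * M ^ (k - 1) * ‖x - y‖) * (8 * Real.exp (-M / n))
        + M ^ k * (8 * Real.exp (-M / n) * ‖x - y‖) := by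
        gcongr
    _ = 8 * ((k * M ^ (k - 1) + M ^ k) * Real.exp (-M / n)) * ‖x - y‖ := by ring

/-- the scalar bound -/
theorem scal_le {n : ℕ} (hn : 4 ≤ n) {M : ℝ} (hM : 0 ≤ M) {j : ℕ} (hj : j ≤ n + 4) :
    cn n * (M ^ j * Real.exp (-M / n)) ≤ 16 * (n : ℝ) ^ 8 := by
  have hn0 : (0 : ℝ) < n := by exact_mod_cast (by omega : 0 < n)
  have hn1 : (1 : ℝ) ≤ n := by exact_mod_cast (by omega : 1 ≤ n)
  have hn4 : (4 : ℝ) ≤ n := by exact_mod_cast hn
  have h1 := H207.pow_exp_le (by omega : 0 < n) hM j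
  have hc0 : 0 ≤ cn n := (H207.cn_pos (by omega)).le
  have h2 : (n : ℝ) ^ j * (j ! : ℝ) ≤ (n : ℝ) ^ (n + 4) * ((n + 4)! : ℝ) := by
    have h3 : (j ! : ℝ) ≤ ((n + 4)! : ℝ) := by exact_mod_cast Nat.factorial_le hj
    have h4 : (n : ℝ) ^ j ≤ (n : ℝ) ^ (n + 4) := pow_le_pow_right₀ hn1 hj
    gcongr
  have h5 : ((n + 4)! : ℝ) ≤ (n ! : ℝ) * (n + 4 : ℝ) ^ 4 := by
    have h6 := Nat.factorial_mul_ascFactorial n 4
    have h7 := Nat.ascFactorial_le_pow_add n 4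
    have h8 : (n + 4)! ≤ n ! * (n + 4) ^ 4 := by
      rw [← h6]; exact Nat.mul_le_mul_left _ h7
    exact_mod_cast h8
  have h6 : cn n ≤ 1 / ((n ! : ℝ) * (n : ℝ) ^ n) := by
    unfold cn
    have : √(2 / Real.pi) ≤ 1 := by
      rw [Real.sqrt_le_one]; exact H207.two_div_pi_le
    gcongr
  have h7 : (n : ℝ) ^ j * (j ! : ℝ) ≤ (n : ℝ) ^ (n + 4) * ((n ! : ℝ) * (n + 4 : ℝ) ^ 4) :=
    h2.trans (by gcongr)
  calc cn n * (M ^ j * Real.exp (-M / n)) ≤ cn n * ((n : ℝ) ^ j * (j ! : ℝ)) := by gcongr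
    _ ≤ (1 / ((n ! : ℝ) * (n : ℝ) ^ n)) * ((n : ℝ) ^ (n + 4) * ((n ! : ℝ) * (n + 4 : ℝ) ^ 4)) :=
        mul_le_mul h6 h7 (by positivity) (by positivity)
    _ = (n : ℝ) ^ 4 * (n + 4 : ℝ) ^ 4 := by
        have : (n ! : ℝ) ≠ 0 := by positivity
        have : (n : ℝ) ^ n ≠ 0 := by positivity
        rw [pow_add]
        field_simp
    _ ≤ (n : ℝ) ^ 4 * (2 * n : ℝ) ^ 4 := by
        gcongr; linarith
    _ = 16 * (n : ℝ) ^ 8 := by ring

/-- the weighted scalar bound -/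
theorem scal_wt {n : ℕ} (hn : 4 ≤ n) {M : ℝ} (hM : 0 ≤ M) {j : ℕ} (hj : j ≤ n - 1) :
    (1 + M) ^ 5 * (cn n * (M ^ j * Real.exp (-M / n))) ≤ 1024 * (n : ℝ) ^ 8 := by
  have h1 := scal_le hn hM (j := j) (by omega)
  have h2 := scal_le hn hM (j := j + 5) (by omega)
  have hc0 : 0 ≤ cn n := (H207.cn_pos (by omega)).le
  have hE := Real.exp_pos (-M / n)
  have h3 : (1 + M) ^ 5 ≤ 32 * (1 + M ^ 5) := by
    rcases le_total M 1 with h | h
    · have : (1 + M) ^ 5 ≤ 2 ^ 5 := by gcongr; linarith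
      have := pow_nonneg hM 5
      nlinarith
    · have h4 : (1 + M) ^ 5 ≤ (2 * M) ^ 5 := by gcongr; linarith
      have : (2 * M) ^ 5 = 32 * M ^ 5 := by ring
      linarith
  calc (1 + M) ^ 5 * (cn n * (M ^ j * Real.exp (-M / n)))
      ≤ (32 * (1 + M ^ 5)) * (cn n * (M ^ j * Real.exp (-M / n))) := by gcongr
    _ = 32 * (cn n * (M ^ j * Real.exp (-M / n))) + 32 * (cn n * (M ^ (j + 5) * Real.exp (-M / n))) := by
        ring
    _ ≤ 1024 * (n : ℝ) ^ 8 := by linarith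

theorem zP_wt {n : ℕ} (hn : 4 ≤ n) (a : ℝ) {k : ℕ} (hk : k ≤ n - 1) (x : R3) :
    (1 + ‖x‖) ^ 5 * (cn n * ‖zP n a k x‖) ≤ 1024 * (n : ℝ) ^ 8 := by
  refine le_trans ?_ (scal_wt hn (norm_nonneg x) hk)
  have hc0 : 0 ≤ cn n := (H207.cn_pos (by omega)).le
  have := zP_norm n a k x
  gcongr

theorem zP_lip_wt {n : ℕ} (hn : 4 ≤ n) (a : ℝ) {k : ℕ} (hk : k ≤ n - 1) {x y : R3}
    (h : ‖x - y‖ ≤ 2) :
    (1 + ‖x‖) ^ 5 * (cn n * ‖zP n a k x - zP n a k y‖) ≤ 8192 * (n : ℝ) ^ 9 * ‖x - y‖ := by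
  have h1 := zP_lip (by omega : 1 ≤ n) a k h
  set M := max ‖x‖ ‖y‖ with hM
  have hM0 : 0 ≤ M := le_max_of_le_left (norm_nonneg _)
  have hxM : ‖x‖ ≤ M := le_max_left _ _
  have hc0 : 0 ≤ cn n := (H207.cn_pos (by omega)).le
  have hn0 : (0 : ℝ) < n := by exact_mod_cast (by omega : 0 < n)
  have hn1 : (1 : ℝ) ≤ n := by exact_mod_cast (by omega : 1 ≤ n)
  have hk' : (k : ℝ) + 1 ≤ n := by
    have : k + 1 ≤ n := by omega
    exact_mod_cast this
  have s1 := scal_wt hn hM0 (j := k - 1) (by omega)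
  have s2 := scal_wt hn hM0 hk
  have hE := Real.exp_pos (-M / n)
  have hd := norm_nonneg (x - y)
  calc (1 + ‖x‖) ^ 5 * (cn n * ‖zP n a k x - zP n a k y‖)
      ≤ (1 + M) ^ 5 * (cn n * (8 * ((k * M ^ (k - 1) + M ^ k) * Real.exp (-M / n)) * ‖x - y‖)) := by
        gcongr
    _ = 8 * (k * ((1 + M) ^ 5 * (cn n * (M ^ (k - 1) * Real.exp (-M / n))))
        + (1 + M) ^ 5 * (cn n * (M ^ k * Real.exp (-M / n)))) * ‖x - y‖ := by ring
    _ ≤ 8 * (k * (1024 * (n : ℝ) ^ 8) + 1024 * (n : ℝ) ^ 8) * ‖x - y‖ := by gcongr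
    _ = 8192 * (n : ℝ) ^ 8 * (k + 1) * ‖x - y‖ := by ring
    _ ≤ 8192 * (n : ℝ) ^ 8 * n * ‖x - y‖ := by gcongr
    _ = 8192 * (n : ℝ) ^ 9 * ‖x - y‖ := by ring

/-- a field with weighted decay and weighted local Lipschitz bound -/
structure WB {E : Type*} [NormedAddCommGroup E] (F : R3 → E) (B : ℝ) : Prop where
  le : ∀ x, ‖F x‖ ≤ B / (1 + ‖x‖) ^ 5
  lip : ∀ x y, ‖x - y‖ ≤ 2 → ‖F x - F y‖ ≤ B / (1 + ‖x‖) ^ 5 * ‖x - y‖

theorem WB.nonneg {E : Type*} [NormedAddCommGroup E] {F : R3 → E} {B : ℝ} (h : WB F B) : 0 ≤ B := by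
  have := h.le 0
  simp only [norm_zero, add_zero, one_pow, div_one] at this
  exact (norm_nonneg _).trans this

theorem WB.mono {E : Type*} [NormedAddCommGroup E] {F : R3 → E} {B C : ℝ} (h : WB F B) (hBC : B ≤ C) :
    WB F C where
  le x := (h.le x).trans (by gcongr)
  lip x y hxy := (h.lip x y hxy).trans (by gcongr)

theorem WB.add {E : Type*} [NormedAddCommGroup E] {F G : R3 → E} {B C : ℝ} (h : WB F B) (h' : WB G C) :
    WB (fun x => F x + G x) (B + C) where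
  le x := (norm_add_le _ _).trans (by rw [add_div]; exact add_le_add (h.le x) (h'.le x))
  lip x y hxy := by
    have e : F x + G x - (F y + G y) = (F x - F y) + (G x - G y) := by abel
    rw [e]
    refine (norm_add_le _ _).trans ?_
    rw [add_div, add_mul]
    exact add_le_add (h.lip x y hxy) (h'.lip x y hxy)

theorem WB.neg {E : Type*} [NormedAddCommGroup E] {F : R3 → E} {B : ℝ} (h : WB F B) :
    WB (fun x => -F x) B where
  le x := by rw [norm_neg]; exact h.le x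
  lip x y hxy := by
    have e : -F x - -F y = -(F x - F y) := by abel
    rw [e, norm_neg]; exact h.lip x y hxy

theorem WB.sub {E : Type*} [NormedAddCommGroup E] {F G : R3 → E} {B C : ℝ} (h : WB F B) (h' : WB G C) :
    WB (fun x => F x - G x) (B + C) := by
  simpa [sub_eq_add_neg] using h.add h'.neg

theorem WB.const_smul {E : Type*} [NormedAddCommGroup E] [NormedSpace ℝ E] {F : R3 → E} {B : ℝ}
    (h : WB F B) (c : ℝ) : WB (fun x => c • F x) (|c| * B) where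
  le x := by
    rw [norm_smul, Real.norm_eq_abs, mul_div_assoc]
    exact mul_le_mul_of_nonneg_left (h.le x) (abs_nonneg c)
  lip x y hxy := by
    rw [← smul_sub, norm_smul, Real.norm_eq_abs, mul_div_assoc, mul_assoc]
    exact mul_le_mul_of_nonneg_left (h.lip x y hxy) (abs_nonneg c)

theorem WB.zero {E : Type*} [NormedAddCommGroup E] : WB (fun _ : R3 => (0 : E)) 0 where
  le x := by simp
  lip x y _ := by simp

theorem WB.sum {E : Type*} [NormedAddCommGroup E] {ι : Type*} (s : Finset ι) {F : ι → R3 → E}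
    {B : ι → ℝ} (h : ∀ i ∈ s, WB (F i) (B i)) : WB (fun x => ∑ i ∈ s, F i x) (∑ i ∈ s, B i) := by
  classical
  induction s using Finset.induction_on with
  | empty => simpa using WB.zero
  | insert a s ha ih =>
    simp only [Finset.sum_insert ha]
    exact (h a (Finset.mem_insert_self a s)).add (ih fun i hi => h i (Finset.mem_insert_of_mem hi))

/-- product with a bounded Lipschitz function -/
theorem WB.mul {E : Type*} [NormedAddCommGroup E] [NormedSpace ℝ E] {F : R3 → E} {B : ℝ}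
    (h : WB F B) {f : R3 → ℝ} {b l : ℝ} (hb : ∀ x, |f x| ≤ b) (hl : ∀ x y, |f x - f y| ≤ l * ‖x - y‖) :
    WB (fun x => f x • F x) ((b + l) * B) where
  le x := by
    have hB := h.nonneg
    have hl0 : 0 ≤ l := by
      have := hl 0 (EuclideanSpace.single 0 1)
      have h2 : ‖(0 : R3) - EuclideanSpace.single 0 1‖ = 1 := by simp
      rw [h2, mul_one] at this
      exact (abs_nonneg _).trans this
    rw [norm_smul, Real.norm_eq_abs, mul_div_assoc]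
    have h1 := h.le x
    have h2 := hb x
    calc |f x| * ‖F x‖ ≤ b * (B / (1 + ‖x‖) ^ 5) := by
          have : 0 ≤ b := (abs_nonneg _).trans h2
          gcongr
      _ ≤ (b + l) * (B / (1 + ‖x‖) ^ 5) := by
          gcongr
          linarith
  lip x y hxy := by
    have hB := h.nonneg
    have e : f x • F x - f y • F y = (f x - f y) • F x + f y • (F x - F y) := by
      rw [sub_smul, smul_sub]; abel
    rw [e]
    refine (norm_add_le _ _).trans ?_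
    rw [norm_smul, norm_smul, Real.norm_eq_abs, Real.norm_eq_abs]
    have h1 := h.le x
    have h2 := hb y
    have h3 := hl x y
    have h4 := h.lip x y hxy
    have hb0 : 0 ≤ b := (abs_nonneg _).trans h2
    have h5 : 0 ≤ l * ‖x - y‖ := (abs_nonneg _).trans h3
    calc |f x - f y| * ‖F x‖ + |f y| * ‖F x - F y‖
        ≤ (l * ‖x - y‖) * (B / (1 + ‖x‖) ^ 5) + b * (B / (1 + ‖x‖) ^ 5 * ‖x - y‖) := by
          gcongr
      _ = (b + l) * B / (1 + ‖x‖) ^ 5 * ‖x - y‖ := by ring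

/-- gradient of the ring with phase `c` -/
def gR (n : ℕ) (a : ℝ) (c : ℂ) (x : R3) : R3 :=
  (cn n * Real.exp (-‖x‖ / n)) •
    (((n : ℝ) - 1) • ((c * (zet a x) ^ (n - 2)).re • ez - (c * (zet a x) ^ (n - 2)).im • wvec a)
      - ((c * (zet a x) ^ (n - 1)).re / (n * ‖x‖)) • x)

theorem gradC_eq (n : ℕ) (a : ℝ) : gradC n a = gR n a 1 := by
  funext x
  simp only [gradC, gR, one_mul]

theorem gradS_eq (n : ℕ) (a : ℝ) : gradS n a = gR n a (-Complex.I) := by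
  funext x
  have h1 : ∀ z : ℂ, (-Complex.I * z).re = z.im := fun z => by simp
  have h2 : ∀ z : ℂ, (-Complex.I * z).im = -z.re := fun z => by simp
  simp only [gradS, gR, h1, h2, neg_smul, sub_neg_eq_add]

theorem norm_ez : ‖ez‖ = 1 := by
  rw [ez, EuclideanSpace.norm_eq]
  simp [Fin.sum_univ_three]

theorem norm_wvec (a : ℝ) : ‖wvec a‖ = 1 := by
  rw [wvec, EuclideanSpace.norm_eq]
  simp [Fin.sum_univ_three]

theorem gR_split (n : ℕ) (a : ℝ) (c : ℂ) (x : R3) :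
    gR n a c x = (((n : ℝ) - 1) • ((cn n * (c * zP n a (n - 2) x).re) • ez
        - (cn n * (c * zP n a (n - 2) x).im) • wvec a))
      - (1 / (n : ℝ)) • ((cn n * (c * zP n a (n - 1) x).re) • (‖x‖⁻¹ • x)) := by
  have h1 : ∀ k, (c * zP n a k x).re = (c * zet a x ^ k).re * Real.exp (-‖x‖ / n) := by
    intro k; rw [zP, ← mul_assoc, Complex.re_mul_ofReal]
  have h2 : ∀ k, (c * zP n a k x).im = (c * zet a x ^ k).im * Real.exp (-‖x‖ / n) := by
    intro k; rw [zP, ← mul_assoc, Complex.im_mul_ofReal]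
  rw [h1, h1, h2, gR]
  rw [smul_sub, smul_sub, smul_smul, smul_smul, smul_smul, smul_smul, smul_sub, smul_smul,
    smul_smul]
  have e1 : (cn n * Real.exp (-‖x‖ / n)) * ((c * zet a x ^ (n - 1)).re / (n * ‖x‖))
      = 1 / (n : ℝ) * (cn n * ((c * zet a x ^ (n - 1)).re * Real.exp (-‖x‖ / n)) * ‖x‖⁻¹) := by
    simp only [div_eq_mul_inv, mul_inv]
    ring
  rw [e1, smul_sub]
  simp only [smul_smul]
  congr 1
  · congr 2
    · ring
    · ring
  · congr 1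
    ring

theorem wb_re {n : ℕ} (hn : 4 ≤ n) (a : ℝ) {c : ℂ} (hc : ‖c‖ ≤ 1) {k : ℕ} (hk : k ≤ n - 1) :
    WB (fun x => cn n * (c * zP n a k x).re) (8192 * (n : ℝ) ^ 9) := by
  have hc0 : 0 ≤ cn n := (H207.cn_pos (by omega)).le
  have hn1 : (1 : ℝ) ≤ n := by exact_mod_cast (by omega : 1 ≤ n)
  refine ⟨fun x => ?_, fun x y hxy => ?_⟩
  · rw [le_div_iff₀ (by positivity)]
    have h1 := zP_wt hn a hk x
    have h2 : |(c * zP n a k x).re| ≤ ‖zP n a k x‖ := by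
      refine (Complex.abs_re_le_norm _).trans ?_
      rw [norm_mul]
      exact mul_le_of_le_one_left (norm_nonneg _) hc
    rw [Real.norm_eq_abs, abs_mul, abs_of_nonneg hc0]
    calc cn n * |(c * zP n a k x).re| * (1 + ‖x‖) ^ 5
        ≤ cn n * ‖zP n a k x‖ * (1 + ‖x‖) ^ 5 := by gcongr
      _ = (1 + ‖x‖) ^ 5 * (cn n * ‖zP n a k x‖) := by ring
      _ ≤ 1024 * (n : ℝ) ^ 8 := h1
      _ ≤ 8192 * (n : ℝ) ^ 9 := by
          have : (n : ℝ) ^ 8 ≤ (n : ℝ) ^ 9 := pow_le_pow_right₀ hn1 (by norm_num)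
          nlinarith [pow_pos (by linarith : (0 : ℝ) < n) 8]
  · rw [div_mul_eq_mul_div, le_div_iff₀ (by positivity), ← mul_sub, ← Complex.sub_re, ← mul_sub,
      Real.norm_eq_abs, abs_mul, abs_of_nonneg hc0]
    have h1 := zP_lip_wt hn a hk hxy
    have h2 : |(c * (zP n a k x - zP n a k y)).re| ≤ ‖zP n a k x - zP n a k y‖ := by
      refine (Complex.abs_re_le_norm _).trans ?_
      rw [norm_mul]
      exact mul_le_of_le_one_left (norm_nonneg _) hc
    calc cn n * |(c * (zP n a k x - zP n a k y)).re| * (1 + ‖x‖) ^ 5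
        ≤ cn n * ‖zP n a k x - zP n a k y‖ * (1 + ‖x‖) ^ 5 := by gcongr
      _ = (1 + ‖x‖) ^ 5 * (cn n * ‖zP n a k x - zP n a k y‖) := by ring
      _ ≤ 8192 * (n : ℝ) ^ 9 * ‖x - y‖ := h1

theorem im_eq_re (c z : ℂ) : (c * z).im = (-Complex.I * c * z).re := by
  simp

theorem wb_im {n : ℕ} (hn : 4 ≤ n) (a : ℝ) {c : ℂ} (hc : ‖c‖ ≤ 1) {k : ℕ} (hk : k ≤ n - 1) :
    WB (fun x => cn n * (c * zP n a k x).im) (8192 * (n : ℝ) ^ 9) := by
  have h := wb_re hn a (c := -Complex.I * c) (by rw [norm_mul]; simpa using hc) hk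
  simpa only [im_eq_re] using h

theorem WB.smul_vec {f : R3 → ℝ} {B : ℝ} (h : WB f B) {v : R3} (hv : ‖v‖ = 1) :
    WB (fun x => f x • v) B where
  le x := by rw [norm_smul, hv, mul_one]; exact h.le x
  lip x y hxy := by rw [← sub_smul, norm_smul, hv, mul_one]; exact h.lip x y hxy

theorem unit_diff (x y : R3) (hy : y ≠ 0) : ‖‖x‖⁻¹ • x - ‖y‖⁻¹ • y‖ * ‖y‖ ≤ 2 * ‖x - y‖ := by
  have hy' : ‖y‖ ≠ 0 := norm_ne_zero_iff.2 hy
  rcases eq_or_ne x 0 with rfl | hx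
  · simp only [norm_zero, inv_zero, zero_smul, zero_sub, norm_neg, norm_smul, norm_inv, norm_norm]
    rw [inv_mul_cancel₀ hy', one_mul]
    linarith [norm_nonneg y]
  · have hx' : ‖x‖ ≠ 0 := norm_ne_zero_iff.2 hx
    have e : ‖‖x‖⁻¹ • x - ‖y‖⁻¹ • y‖ * ‖y‖ = ‖(‖y‖ - ‖x‖) • (‖x‖⁻¹ • x) + (x - y)‖ := by
      rw [← norm_norm y, mul_comm, ← norm_smul, norm_norm]
      congr 1
      rw [smul_sub, sub_smul, smul_smul ‖y‖ ‖y‖⁻¹, mul_inv_cancel₀ hy', one_smul, smul_smul ‖x‖,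
        mul_inv_cancel₀ hx', one_smul]
      abel
    rw [e]
    refine (norm_add_le _ _).trans ?_
    rw [norm_smul, norm_smul, norm_inv, norm_norm, inv_mul_cancel₀ hx', mul_one, Real.norm_eq_abs]
    have := abs_norm_sub_norm_le y x
    rw [norm_sub_rev] at this
    linarith

theorem wb_unit {n : ℕ} (hn : 4 ≤ n) (a : ℝ) {c : ℂ} (hc : ‖c‖ ≤ 1) :
    WB (fun x : R3 => (cn n * (c * zP n a (n - 1) x).re) • (‖x‖⁻¹ • x))
      (8192 * (n : ℝ) ^ 9 + 243 * (2 * (1024 * (n : ℝ) ^ 8))) := by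
  have hw := wb_re hn a hc (k := n - 1) le_rfl
  have hc0 : 0 ≤ cn n := (H207.cn_pos (by omega)).le
  have hu : ∀ x : R3, ‖‖x‖⁻¹ • x‖ ≤ 1 := by
    intro x
    rw [norm_smul, norm_inv, norm_norm]
    rcases eq_or_ne x 0 with rfl | hx
    · simp
    · rw [inv_mul_cancel₀ (norm_ne_zero_iff.2 hx)]
  refine ⟨fun x => ?_, fun x y hxy => ?_⟩
  · rw [norm_smul]
    have h1 := hw.le x
    have h2 := hu x
    calc ‖cn n * (c * zP n a (n - 1) x).re‖ * ‖‖x‖⁻¹ • x‖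
        ≤ ‖cn n * (c * zP n a (n - 1) x).re‖ * 1 := by gcongr
      _ ≤ 8192 * (n : ℝ) ^ 9 / (1 + ‖x‖) ^ 5 := by rw [mul_one]; exact h1
      _ ≤ _ := by gcongr; linarith [pow_pos (by positivity : (0 : ℝ) < n) 8]
  · have e : (cn n * (c * zP n a (n - 1) x).re) • (‖x‖⁻¹ • x)
        - (cn n * (c * zP n a (n - 1) y).re) • (‖y‖⁻¹ • y)
        = (cn n * (c * zP n a (n - 1) x).re - cn n * (c * zP n a (n - 1) y).re) • (‖x‖⁻¹ • x)
          + (cn n * (c * zP n a (n - 1) y).re) • (‖x‖⁻¹ • x - ‖y‖⁻¹ • y) := by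
      rw [sub_smul, smul_sub]; abel
    rw [e]
    refine (norm_add_le _ _).trans ?_
    rw [norm_smul (cn n * (c * zP n a (n - 1) x).re - cn n * (c * zP n a (n - 1) y).re),
      norm_smul (cn n * (c * zP n a (n - 1) y).re)]
    have h1 := hw.lip x y hxy
    have h2 := hu x
    have h3 : ‖cn n * (c * zP n a (n - 1) y).re‖ * ‖‖x‖⁻¹ • x - ‖y‖⁻¹ • y‖
        ≤ 243 * (2 * (1024 * (n : ℝ) ^ 8)) / (1 + ‖x‖) ^ 5 * ‖x - y‖ := by
      rcases eq_or_ne y 0 with rfl | hy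
      · have : zP n a (n - 1) 0 = 0 := by
          unfold zP
          have : zet a 0 = 0 := by apply Complex.ext <;> simp [zet]
          rw [this, zero_pow (by omega), zero_mul]
        rw [this, mul_zero, Complex.zero_re, mul_zero, norm_zero, zero_mul]
        positivity
      · have hy' : 0 < ‖y‖ := norm_pos_iff.2 hy
        have h4 := unit_diff x y hy
        have h5 : ‖cn n * (c * zP n a (n - 1) y).re‖ ≤ cn n * (‖y‖ ^ (n - 2) * Real.exp (-‖y‖ / n)) * ‖y‖ := by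
          rw [Real.norm_eq_abs, abs_mul, abs_of_nonneg hc0]
          have h6 : |(c * zP n a (n - 1) y).re| ≤ ‖zP n a (n - 1) y‖ := by
            refine (Complex.abs_re_le_norm _).trans ?_
            rw [norm_mul]
            exact mul_le_of_le_one_left (norm_nonneg _) hc
          have h7 := zP_norm n a (n - 1) y
          have h8 : ‖y‖ ^ (n - 1) = ‖y‖ ^ (n - 2) * ‖y‖ := by
            rw [← pow_succ]; congr 1; omega
          rw [h8] at h7
          calc cn n * |(c * zP n a (n - 1) y).re| ≤ cn n * (‖y‖ ^ (n - 2) * ‖y‖ * Real.exp (-‖y‖ / n)) := by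
                gcongr; exact h6.trans h7
            _ = _ := by ring
        have h6 := scal_wt hn (norm_nonneg y) (j := n - 2) (by omega)
        have h7 : (1 + ‖x‖) ^ 5 ≤ 243 * (1 + ‖y‖) ^ 5 := by
          have h8 : 1 + ‖x‖ ≤ 3 * (1 + ‖y‖) := by
            have := norm_sub_norm_le x y
            linarith
          calc (1 + ‖x‖) ^ 5 ≤ (3 * (1 + ‖y‖)) ^ 5 := by gcongr
            _ = 243 * (1 + ‖y‖) ^ 5 := by ring
        rw [div_mul_eq_mul_div, le_div_iff₀ (by positivity)]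
        have hE := Real.exp_pos (-‖y‖ / n)
        calc ‖cn n * (c * zP n a (n - 1) y).re‖ * ‖‖x‖⁻¹ • x - ‖y‖⁻¹ • y‖ * (1 + ‖x‖) ^ 5
            ≤ (cn n * (‖y‖ ^ (n - 2) * Real.exp (-‖y‖ / n)) * ‖y‖) * ‖‖x‖⁻¹ • x - ‖y‖⁻¹ • y‖
              * (243 * (1 + ‖y‖) ^ 5) := by gcongr
          _ = 243 * ((1 + ‖y‖) ^ 5 * (cn n * (‖y‖ ^ (n - 2) * Real.exp (-‖y‖ / n))))
              * (‖‖x‖⁻¹ • x - ‖y‖⁻¹ • y‖ * ‖y‖) := by ring
          _ ≤ 243 * (1024 * (n : ℝ) ^ 8) * (2 * ‖x - y‖) := by gcongr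
          _ = 243 * (2 * (1024 * (n : ℝ) ^ 8)) * ‖x - y‖ := by ring
    calc ‖cn n * (c * zP n a (n - 1) x).re - cn n * (c * zP n a (n - 1) y).re‖ * ‖‖x‖⁻¹ • x‖
          + ‖cn n * (c * zP n a (n - 1) y).re‖ * ‖‖x‖⁻¹ • x - ‖y‖⁻¹ • y‖
        ≤ (8192 * (n : ℝ) ^ 9 / (1 + ‖x‖) ^ 5 * ‖x - y‖) * 1
          + 243 * (2 * (1024 * (n : ℝ) ^ 8)) / (1 + ‖x‖) ^ 5 * ‖x - y‖ := by gcongr
      _ = _ := by ring

/-- the gradient of a ring has weighted bound `n^18` -/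
theorem wb_gR {n : ℕ} (hn : 4 ≤ n) (a : ℝ) {c : ℂ} (hc : ‖c‖ ≤ 1) : WB (gR n a c) ((n : ℝ) ^ 18) := by
  have hn4 : (4 : ℝ) ≤ n := by exact_mod_cast hn
  have h1 := ((wb_re hn a hc (k := n - 2) (by omega)).smul_vec norm_ez).sub
    ((wb_im hn a hc (k := n - 2) (by omega)).smul_vec (norm_wvec a))
  have h2 := (h1.const_smul ((n : ℝ) - 1)).sub ((wb_unit hn a hc).const_smul (1 / (n : ℝ)))
  have e : gR n a c = fun x => (((n : ℝ) - 1) • ((cn n * (c * zP n a (n - 2) x).re) • ez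
        - (cn n * (c * zP n a (n - 2) x).im) • wvec a))
      - (1 / (n : ℝ)) • ((cn n * (c * zP n a (n - 1) x).re) • (‖x‖⁻¹ • x)) := by
    funext x; exact gR_split n a c x
  rw [e]
  refine h2.mono ?_
  rw [abs_of_nonneg (by linarith), abs_of_nonneg (by positivity)]
  have h3 : 1 / (n : ℝ) * (8192 * (n : ℝ) ^ 9 + 243 * (2 * (1024 * (n : ℝ) ^ 8)))
      = 8192 * (n : ℝ) ^ 8 + 497664 * (n : ℝ) ^ 7 := by
    have : (n : ℝ) ≠ 0 := by positivity
    field_simp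
    ring
  rw [h3]
  have p7 : (0 : ℝ) < (n : ℝ) ^ 7 := by positivity
  have p8 : (n : ℝ) ^ 8 = n * (n : ℝ) ^ 7 := by ring
  have p10 : (n : ℝ) ^ 10 = n ^ 3 * (n : ℝ) ^ 7 := by ring
  have p18 : (n : ℝ) ^ 18 = n ^ 8 * (n : ℝ) ^ 10 := by ring
  have h48 : (4 : ℝ) ^ 8 ≤ (n : ℝ) ^ 8 := by gcongr
  have h43 : (4 : ℝ) ^ 3 ≤ (n : ℝ) ^ 3 := by gcongr
  have h42 : (4 : ℝ) ^ 2 ≤ (n : ℝ) ^ 2 := by gcongr
  have h5 : ((n : ℝ) - 1) * (8192 * (n : ℝ) ^ 9 + 8192 * (n : ℝ) ^ 9) ≤ 16384 * (n : ℝ) ^ 10 := by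
    have : (0 : ℝ) < (n : ℝ) ^ 9 := by positivity
    nlinarith
  have h6 : 8192 * (n : ℝ) ^ 8 + 497664 * (n : ℝ) ^ 7 ≤ 16384 * (n : ℝ) ^ 10 := by
    rw [p8, p10]
    have : 8192 * (n * (n : ℝ) ^ 7) ≤ 512 * (n ^ 3 * (n : ℝ) ^ 7) := by
      have : 8192 * (n : ℝ) ≤ 512 * (n : ℝ) ^ 3 := by nlinarith
      nlinarith
    nlinarith
  have h7 : 32768 * (n : ℝ) ^ 10 ≤ (n : ℝ) ^ 18 := by
    rw [p18]
    have : (0 : ℝ) < (n : ℝ) ^ 10 := by positivity
    nlinarith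
  linarith

end

end Vale.Agent.P370.H98
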