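import Vale.Agent.P363.R.B5.Polar
import Vale.Agent.P363.R.H10.Calc
import Vale.Agent.P363.R.H10.ExpPoly
import Vale.Agent.P370.H758.Weight

/-! Integrals of homogeneous functions against radial weights, and the vanishing of the integrals of
monomials in `w, w̄, z` of non-zero weight. -/

namespace Vale.Agent.P370.H98

open MeasureTheory Set Filter Topology
open Vale.Agent.P363.Stmt (R3)
open Vale.Agent.P363.B5 (S2 sig rad pol)
open Vale.Agent.P370.H758 (cw mon Mz exists_rotz)
open scoped ComplexConjugate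

noncomputable section

/-- homogeneous × radial in polar coordinates -/
theorem hom_int {q : R3 → ℝ} {D : ℕ} (hq : ∀ (r : ℝ), 0 < r → ∀ u : R3, q (r • u) = r ^ D * q u)
    (g : ℝ → ℝ) :
    ∫ x, q x * g ‖x‖ = (∫ u : S2, q u ∂sig) * ∫ r in Ioi (0 : ℝ), r ^ (D + 2) * g r := by
  rw [Vale.Agent.P363.B5.integral_pol]
  have e : (fun p : S2 × Ioi (0 : ℝ) => q (pol p) * g ‖pol p‖)
      = fun p => q p.1 * (fun r : Ioi (0 : ℝ) => (r : ℝ) ^ D * g r) p.2 := by
    funext p
    have h1 : ‖pol p‖ = (p.2 : ℝ) := by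
      unfold pol
      rw [norm_smul, Real.norm_eq_abs, abs_of_pos p.2.2]
      have : ‖(p.1 : R3)‖ = 1 := by simp
      rw [this, mul_one]
    rw [h1]
    unfold pol
    rw [hq _ p.2.2]
    ring
  rw [e, integral_prod_mul (fun u : S2 => q u) (fun r : Ioi (0 : ℝ) => (r : ℝ) ^ D * g r)]
  congr 1
  rw [Vale.Agent.P363.B5.integral_rad (fun r => r ^ D * g r)]
  refine setIntegral_congr_fun measurableSet_Ioi fun r _ => ?_
  ring

theorem norm_cw_sq (x : R3) : ‖cw x‖ ^ 2 = x 0 ^ 2 + x 1 ^ 2 := by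
  rw [Complex.sq_norm, Complex.normSq_apply]
  simp [cw]
  ring

theorem norm_cw_le (x : R3) : ‖cw x‖ ≤ ‖x‖ := by
  have h1 := norm_cw_sq x
  have h2 := Vale.Agent.P363.R.H10.norm_sq_eq_sum x
  have h3 : ‖cw x‖ ^ 2 ≤ ‖x‖ ^ 2 := by rw [h1, h2]; nlinarith [sq_nonneg (x 2)]
  exact (sq_le_sq₀ (norm_nonneg _) (norm_nonneg _)).1 h3

theorem continuous_cw : Continuous cw := by
  unfold cw; fun_prop

theorem continuous_mon (a b c : ℕ) : Continuous (mon a b c) := by
  unfold mon
  have := continuous_cw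
  have h2 : Continuous fun x : R3 => conj (cw x) := Complex.continuous_conj.comp this
  fun_prop

theorem norm_mon_le (a b c : ℕ) (x : R3) : ‖mon a b c x‖ ≤ ‖x‖ ^ (a + b + c) := by
  unfold mon
  rw [norm_mul, norm_mul, norm_pow, norm_pow, norm_pow, RCLike.norm_conj, pow_add, pow_add]
  have h1 := norm_cw_le x
  have h2 : ‖((x 2 : ℝ) : ℂ)‖ ≤ ‖x‖ := by
    rw [Complex.norm_real]
    exact Vale.Agent.P363.R.H10.abs_coord_le x 2
  gcongr

/-- radial weights -/
def wt (j : ℕ) (α : ℝ) (x : R3) : ℝ := ‖x‖ ^ j * Real.exp (-α * ‖x‖)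

theorem wt_continuous (j : ℕ) (α : ℝ) : Continuous (wt j α) := by unfold wt; fun_prop

theorem wt_nonneg (j : ℕ) (α : ℝ) (x : R3) : 0 ≤ wt j α x := by unfold wt; positivity

theorem wt_integrable (j : ℕ) {α : ℝ} (hα : 0 < α) : Integrable (wt j α) := by
  have h := (Vale.Agent.P363.R.H10.integrable_radial (F := fun r => r ^ j * Real.exp (-α * r))).2 (by
    have := (Vale.Agent.P363.R.H10.pow_exp_int (j + 2) hα).1
    refine this.congr_fun (fun r _ => ?_) measurableSet_Ioi
    simp only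
    ring)
  exact h

theorem mon_wt_integrable (a b c j : ℕ) {α : ℝ} (hα : 0 < α) :
    Integrable fun x => mon a b c x * (wt j α x : ℂ) := by
  refine (wt_integrable (a + b + c + j) hα).mono' ?_ (Eventually.of_forall fun x => ?_)
  · exact ((continuous_mon a b c).mul (Complex.continuous_ofReal.comp (wt_continuous j α))).aestronglyMeasurable
  · rw [norm_mul, Complex.norm_real, Real.norm_eq_abs, abs_of_nonneg (wt_nonneg j α x)]
    calc ‖mon a b c x‖ * wt j α x ≤ ‖x‖ ^ (a + b + c) * wt j α x := by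
          gcongr
          · exact wt_nonneg j α x
          · exact norm_mon_le a b c x
      _ = wt (a + b + c + j) α x := by unfold wt; ring

/-- monomials of non-zero weight have integral zero against radial weights -/
theorem mon_int_zero {a b : ℕ} (c : ℕ) (h : a ≠ b) (g : ℝ → ℝ) :
    ∫ x, mon a b c x * (g ‖x‖ : ℂ) = 0 := by
  have hab : ((a : ℂ) - b) ≠ 0 := by
    rw [sub_ne_zero]; exact_mod_cast h
  set z : ℂ := Complex.exp ((Real.pi / ((a : ℝ) - b) : ℝ) * Complex.I) with hz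
  have hz1 : ‖z‖ = 1 := Complex.norm_exp_ofReal_mul_I _
  obtain ⟨A, hA⟩ := exists_rotz z hz1
  have hz2 : z ^ a * conj z ^ b = -1 := by
    have h1 : conj z = z⁻¹ := by
      rw [← Complex.exp_conj, hz, ← Complex.exp_neg]
      simp
    rw [h1, hz, ← Complex.exp_neg, ← Complex.exp_nat_mul, ← Complex.exp_nat_mul, ← Complex.exp_add]
    rw [show (a : ℂ) * ((Real.pi / ((a : ℝ) - b) : ℝ) * Complex.I)
        + (b : ℂ) * (-((Real.pi / ((a : ℝ) - b) : ℝ) * Complex.I)) = Real.pi * Complex.I by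
      push_cast
      field_simp
      ring]
    exact Complex.exp_pi_mul_I
  have e : ∀ x, mon a b c (A x) * (g ‖A x‖ : ℂ) = -(mon a b c x * (g ‖x‖ : ℂ)) := by
    intro x
    unfold mon
    rw [(hA x).1, (hA x).2, A.norm_map, map_mul, mul_pow, mul_pow]
    linear_combination (cw x ^ a * conj (cw x) ^ b * (x 2 : ℂ) ^ c * (g ‖x‖ : ℂ)) * hz2
  have h2 := A.measurePreserving.integral_comp A.toHomeomorph.measurableEmbedding
    (fun x => mon a b c x * (g ‖x‖ : ℂ))
  simp only [e] at h2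
  rw [integral_neg] at h2
  exact self_eq_neg.1 h2.symm

end

end Vale.Agent.P370.H98
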